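import Vale.Agent.P018.K2.Interp

/-! # P018, K2 (staircase), module C: number of sub-cells of side `h` of a cube of side `h N`
which contain points, when every `r`-tuple of conjugates satisfies a relation.

`cnt_main'` : same proof as `cnt_main` in `Vale.Agent.P018.K.Count`, with `d * (H-1)` replaced by `A`
and the use of `cnt_P_top` replaced by the hypothesis `htop`.
`count_cells` : same as `count_points` in that file. For every nonempty cell choose one point; split
the cells in the `2^d` parity classes of the index `u = (q.2 - y0)/h`; apply `cnt_main'` and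
`cells_top` to the good points of one class; the bad points (`G(n) = 0`) are at most
`C1 * (d^r * D)`. -/

namespace Vale.Agent.P018.K2

open Polynomial Vale.Agent.P018.K

theorem cnt_main' {d : ℕ} {L : Type} [Field L] {ι : Type} [Fintype ι] [CharZero L] {r D : ℕ}
    (hr : 1 ≤ r) {J : Type} [Fintype J] [DecidableEq J] (I : J → Fin r → Fin d)
    (hIs : ∀ K : Fin r → Fin d, Function.Injective K → ∃ j, I j = K)
    (F : J → MvPolynomial (Fin r) L[X])
    (hD : ∀ j, ∀ a ∈ (F j).support, a.degree ≤ D ∧ ((F j).coeff a).natDegree ≤ D)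
    (c : J → Fin r →₀ ℕ) (hc : ∀ j, c j ∈ (F j).support)
    (hlt : ∀ j, ∀ a ∈ (F j).support.erase (c j),
      cnt_om (D + 1) (cnt_ext (I j) a) < cnt_om (D + 1) (cnt_ext (I j) (c j)))
    (n : ι → L) (y : ι → Fin d → ℤ) (θ : Fin d → L) (A : ℕ)
    (htop : cnt_P (fun i q => ell (θ i) (y q)) A = ⊤)
    (hrel : ∀ j q, MvPolynomial.eval₂ (Polynomial.evalRingHom (n q))
      (fun i => ell (θ (I j i)) (y q)) (F j) = 0)
    (hG : ∀ q, (∏ j, (F j).coeff (c j)).eval (n q) ≠ 0) :
    Fintype.card ι ≤ ((Fintype.card J * D + D) * ((D + 1) ^ d * A + 1) + 1) *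
      (2 ^ d * (D + 1) ^ d * ((D + 1) ^ d * A + 1) ^ (r - 1)) := by
  classical
  set x : Fin d → ι → L := fun i q => ell (θ i) (y q) with hx
  set Om : ℕ := (D + 1) ^ d * A with hOm
  set M : Set (Fin d → ℕ) := {m | ∀ j, ¬ cnt_ext (I j) (c j) ≤ m} with hM
  -- the relation
  have hrel2 : ∀ j q, ((F j).coeff (c j)).eval (n q) * cnt_mon x (cnt_ext (I j) (c j)) q =
      ∑ a ∈ (F j).support.erase (c j), (-(F j).coeff a).eval (n q) *
        cnt_mon x (cnt_ext (I j) a) q := by
    intro j q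
    have h1 := hrel j q
    rw [MvPolynomial.eval₂_eq'] at h1
    have h2 : ∀ a : Fin r →₀ ℕ, (Polynomial.evalRingHom (n q)) ((F j).coeff a) *
        ∏ i, ell (θ (I j i)) (y q) ^ a i =
        ((F j).coeff a).eval (n q) * cnt_mon x (cnt_ext (I j) a) q := by
      intro a
      rw [cnt_ext_mon, Polynomial.coe_evalRingHom]
    rw [Finset.sum_congr rfl fun a _ => h2 a, ← Finset.add_sum_erase _ _ (hc j)] at h1
    rw [eq_neg_of_add_eq_zero_left h1, ← Finset.sum_neg_distrib]
    refine Finset.sum_congr rfl fun a _ => ?_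
    rw [eval_neg, neg_mul]
  have hclaim := cnt_claim n x (D + 1) D (fun j => cnt_ext (I j) (c j))
    (fun j => (F j).coeff (c j)) (fun j => (F j).support.erase (c j))
    (fun j a => cnt_ext (I j) a) (fun j a => -(F j).coeff a) (fun j => (hD j _ (hc j)).2)
    (fun j a ha => by
      rw [natDegree_neg]
      exact (hD j a (Finset.mem_of_mem_erase ha)).2) hlt hrel2
  -- everything is in `W`
  have hsub : (∏ j, (F j).coeff (c j)).natDegree ≤ Fintype.card J * D := by
    refine (natDegree_prod_le _ _).trans ((Finset.sum_le_card_nsmul _ _ D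
      fun j _ => (hD j _ (hc j)).2).trans ?_)
    rw [smul_eq_mul, Finset.card_univ]
  have hW : ∀ u ∈ cnt_P x A,
      (fun q => (∏ j, (F j).coeff (c j)).eval (n q) ^ (Om + 1) * u q) ∈
        cnt_W n x M (D + 1) ((Fintype.card J * D + D) * (Om + 1)) Om := by
    intro u hu
    refine Submodule.span_induction
      (p := fun u _ => (fun q => (∏ j, (F j).coeff (c j)).eval (n q) ^ (Om + 1) * u q) ∈
        cnt_W n x M (D + 1) ((Fintype.card J * D + D) * (Om + 1)) Om) ?_ ?_ ?_ ?_ hu
    · rintro _ ⟨a, ha, rfl⟩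
      have hwa : cnt_om (D + 1) a ≤ Om :=
        (cnt_om_le (Nat.le_add_left 1 D) a).trans (Nat.mul_le_mul_left _ ha)
      have h1 := hclaim _ a rfl
      have h2 := cnt_W_mul (f := (∏ j, (F j).coeff (c j)) ^ (Om - cnt_om (D + 1) a))
        (k := (Om - cnt_om (D + 1) a) * (Fintype.card J * D))
        (natDegree_pow_le.trans (Nat.mul_le_mul_left _ hsub)) h1
      have e : (fun q => (∏ j, (F j).coeff (c j)).eval (n q) ^ (Om + 1) * cnt_mon x a q) =
          fun q => ((∏ j, (F j).coeff (c j)) ^ (Om - cnt_om (D + 1) a)).eval (n q) *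
            ((∏ j, (F j).coeff (c j)).eval (n q) ^ (cnt_om (D + 1) a + 1) *
              cnt_mon x a q) := by
        funext q
        rw [eval_pow, ← mul_assoc, ← pow_add]
        congr 2
        omega
      rw [e]
      refine cnt_W_mono n x M (D + 1) ?_ hwa h2
      obtain ⟨t, ht⟩ : ∃ t, Om = cnt_om (D + 1) a + t := ⟨Om - cnt_om (D + 1) a, by omega⟩
      have e4 : Om - cnt_om (D + 1) a = t := by omega
      rw [e4, ht]
      nlinarith [Nat.zero_le (D * t)]
    · have e : (fun q : ι => (∏ j, (F j).coeff (c j)).eval (n q) ^ (Om + 1) *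
          (0 : ι → L) q) = 0 := by
        funext q
        simp
      rw [e]
      exact Submodule.zero_mem _
    · intro u v _ _ hu hv
      have e : (fun q : ι => (∏ j, (F j).coeff (c j)).eval (n q) ^ (Om + 1) * (u + v) q) =
          (fun q => (∏ j, (F j).coeff (c j)).eval (n q) ^ (Om + 1) * u q) +
            fun q => (∏ j, (F j).coeff (c j)).eval (n q) ^ (Om + 1) * v q := by
        funext q
        simp only [Pi.add_apply, mul_add]
      rw [e]
      exact Submodule.add_mem _ hu hv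
    · intro b u _ hu
      have e : (fun q : ι => (∏ j, (F j).coeff (c j)).eval (n q) ^ (Om + 1) * (b • u) q) =
          b • fun q => (∏ j, (F j).coeff (c j)).eval (n q) ^ (Om + 1) * u q := by
        funext q
        simp only [Pi.smul_apply, smul_eq_mul]
        ring
      rw [e]
      exact Submodule.smul_mem _ _ hu
  have htop2 : cnt_W n x M (D + 1) ((Fintype.card J * D + D) * (Om + 1)) Om = ⊤ := by
    rw [eq_top_iff]
    intro v _
    have h1 : (fun q => v q / (∏ j, (F j).coeff (c j)).eval (n q) ^ (Om + 1)) ∈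
        cnt_P x A := by
      rw [htop]
      exact Submodule.mem_top
    have h2 := hW _ h1
    have e : (fun q => (∏ j, (F j).coeff (c j)).eval (n q) ^ (Om + 1) *
        (v q / (∏ j, (F j).coeff (c j)).eval (n q) ^ (Om + 1))) = v := by
      funext q
      rw [mul_div_cancel₀]
      exact pow_ne_zero _ (hG q)
    rw [e] at h2
    exact h2
  have hfin := cnt_W_finrank n x M (B := D + 1) (b := (Fintype.card J * D + D) * (Om + 1))
    (o := Om) (K := 2 ^ d * (D + 1) ^ d * (Om + 1) ^ (r - 1)) (Nat.le_add_left 1 D) (by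
      intro T hT
      refine cnt_M_card hr T fun m hm => ⟨?_, fun i =>
        (cnt_le_om (Nat.le_add_left 1 D) m i).trans (hT m hm).2⟩
      by_contra hcon
      push Not at hcon
      obtain ⟨U, hU1, hU2⟩ := Finset.exists_subset_card_eq hcon
      obtain ⟨j, hj⟩ := hIs (U.orderEmbOfFin hU2) (U.orderEmbOfFin hU2).injective
      apply (hT m hm).1 j
      intro i
      by_cases hi : ∃ l, I j l = i
      · obtain ⟨l, rfl⟩ := hi
        have h1 : D ≤ m (I j l) := by
          have h2 := hU1 (Finset.orderEmbOfFin_mem U hU2 l)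
          rw [hj]
          exact (Finset.mem_filter.1 h2).2
        exact ((cnt_ext_le _ _ _).trans (hD j _ (hc j)).1).trans h1
      · have h1 : cnt_ext (I j) (c j) i = 0 := by
          unfold cnt_ext
          refine Finset.sum_eq_zero fun l _ => if_neg fun h => hi ⟨l, h⟩
        rw [h1]
        exact Nat.zero_le _)
  rw [htop2, finrank_top, Module.finrank_fintype_fun_eq_card] at hfin
  exact hfin

theorem count_cells (d r D C1 : ℕ) (hr : 1 ≤ r) (hrd : r ≤ d) :
    ∃ C : ℕ, ∀ (L : Type) [Field L] [CharZero L] (θ : Fin d → L), Function.Injective θ →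
      ∀ (h N : ℕ), 1 ≤ h → 1 ≤ N → ∀ (y0 : Fin d → ℤ) (S : Finset (ℤ × (Fin d → ℤ))),
      (∀ q ∈ S, ∀ j, y0 j ≤ q.2 j ∧ q.2 j < y0 j + h * N) →
      (∀ n : ℤ, (S.filter (fun q => q.1 = n)).card ≤ C1) →
      (∀ I : Fin r → Fin d, Function.Injective I → ∃ F : MvPolynomial (Fin r) L[X], F ≠ 0 ∧
        (∀ a ∈ F.support, a.degree ≤ D ∧ (F.coeff a).natDegree ≤ D) ∧
        ∀ q ∈ S, MvPolynomial.eval₂ (Polynomial.evalRingHom (q.1 : L))
          (fun i => ell (θ (I i)) q.2) F = 0) →
      (S.image (fun q => fun j => (q.2 j - y0 j) / (h : ℤ))).card ≤ C * N ^ r := by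
  classical
  obtain ⟨A0, hA0⟩ := cells_top d
  refine ⟨2 ^ d * (((d ^ r * D + D) * ((D + 1) ^ d * A0 + 1) + 1) *
    (2 ^ d * (D + 1) ^ d * ((D + 1) ^ d * A0 + 1) ^ (r - 1))) + C1 * (d ^ r * D), ?_⟩
  intro L _ _ θ hθ h N hh hN y0 S hS hSC hrel
  have hFex : ∀ j : {I : Fin r → Fin d // Function.Injective I},
      ∃ F : MvPolynomial (Fin r) L[X], F ≠ 0 ∧
        (∀ a ∈ F.support, a.degree ≤ D ∧ (F.coeff a).natDegree ≤ D) ∧
        ∀ q ∈ S, MvPolynomial.eval₂ (Polynomial.evalRingHom (q.1 : L))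
          (fun i => ell (θ (j.1 i)) q.2) F = 0 := fun j => hrel j.1 j.2
  choose F hF0 hFD hFq using hFex
  have hcex : ∀ j, ∃ c ∈ (F j).support, ∀ a ∈ (F j).support.erase c,
      cnt_om (D + 1) (cnt_ext j.1 a) < cnt_om (D + 1) (cnt_ext j.1 c) := fun j =>
    cnt_leading j.2 (hF0 j) fun a ha => (hFD j a ha).1
  choose c hc hlt using hcex
  have hJ : Fintype.card {I : Fin r → Fin d // Function.Injective I} ≤ d ^ r := by
    refine (Fintype.card_subtype_le _).trans ?_
    rw [Fintype.card_fun, Fintype.card_fin, Fintype.card_fin]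
  set G : L[X] := ∏ j, (F j).coeff (c j) with hGdef
  have hG0 : G ≠ 0 := Finset.prod_ne_zero_iff.2 fun j _ => MvPolynomial.mem_support_iff.1 (hc j)
  have hGd : G.natDegree ≤ d ^ r * D := by
    refine (natDegree_prod_le _ _).trans ((Finset.sum_le_card_nsmul _ _ D
      fun j _ => (hFD j _ (hc j)).2).trans ?_)
    rw [smul_eq_mul, Finset.card_univ]
    exact Nat.mul_le_mul_right _ hJ
  -- the bad points
  have hbad : (S.filter fun q => G.eval (q.1 : L) = 0).card ≤ C1 * (d ^ r * D) := by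
    have h1 : ((S.filter fun q => G.eval (q.1 : L) = 0).image Prod.fst).card ≤ d ^ r * D := by
      refine le_trans ?_ hGd
      refine le_trans ?_ (card_roots' G)
      refine le_trans ?_ (Multiset.toFinset_card_le _)
      refine Finset.card_le_card_of_injOn (fun z : ℤ => (z : L)) ?_ ?_
      · intro z hz
        rw [Finset.mem_coe, Finset.mem_image] at hz
        obtain ⟨q, hq, rfl⟩ := hz
        rw [Finset.mem_coe, Multiset.mem_toFinset, mem_roots hG0]
        exact (Finset.mem_filter.1 hq).2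
      · intro z _ z' _ h
        exact Int.cast_injective h
    refine (Finset.card_le_mul_card_image (f := Prod.fst) _ C1 ?_).trans
      (Nat.mul_le_mul_left _ h1)
    intro z _
    refine (Finset.card_le_card ?_).trans (hSC z)
    intro q hq
    rw [Finset.mem_filter] at hq ⊢
    exact ⟨(Finset.mem_filter.1 hq.1).1, hq.2⟩
  -- the cells and their representatives
  obtain ⟨φ, hφ⟩ : ∃ φ : ℤ × (Fin d → ℤ) → Fin d → ℤ,
      φ = fun q => fun j => (q.2 j - y0 j) / (h : ℤ) := ⟨_, rfl⟩
  have hh0 : (0 : ℤ) < h := by exact_mod_cast hh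
  have hφ1 : ∀ q ∈ S, ∀ j, 0 ≤ φ q j ∧ φ q j < N := by
    intro q hq j
    obtain ⟨h1, h2⟩ := hS q hq j
    rw [hφ]
    refine ⟨Int.ediv_nonneg (by linarith) hh0.le, ?_⟩
    apply Int.ediv_lt_of_lt_mul hh0
    linarith [mul_comm (h : ℤ) (N : ℤ)]
  have hφ2 : ∀ q ∈ S, ∀ j, y0 j + h * φ q j ≤ q.2 j ∧ q.2 j < y0 j + h * (φ q j + 1) := by
    intro q _ j
    have h1 := Int.mul_ediv_self_le (x := q.2 j - y0 j) (k := (h : ℤ)) hh0.ne'
    have h2 := Int.lt_mul_ediv_self_add (x := q.2 j - y0 j) (k := (h : ℤ)) hh0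
    rw [hφ]
    constructor
    · show y0 j + h * ((q.2 j - y0 j) / (h : ℤ)) ≤ q.2 j
      linarith
    · show q.2 j < y0 j + h * ((q.2 j - y0 j) / (h : ℤ) + 1)
      linarith
  obtain ⟨T, hT⟩ : ∃ T, T = S.image φ := ⟨_, rfl⟩
  have hgoal : (S.image (fun q => fun j => (q.2 j - y0 j) / (h : ℤ))).card = T.card := by
    rw [hT, hφ]
  rw [hgoal]
  have hex : ∀ u : Fin d → ℤ, ∃ q : ℤ × (Fin d → ℤ), u ∈ T → q ∈ S ∧ φ q = u := by
    intro u
    by_cases hu : u ∈ T
    · rw [hT, Finset.mem_image] at hu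
      obtain ⟨q, hq, rfl⟩ := hu
      exact ⟨q, fun _ => ⟨hq, rfl⟩⟩
    · exact ⟨(0, 0), fun h => absurd h hu⟩
  choose p hp using hex
  -- bad cells
  have hbadT : (T.filter fun u => G.eval ((p u).1 : L) = 0).card ≤ C1 * (d ^ r * D) := by
    refine le_trans (Finset.card_le_card_of_injOn p ?_ ?_) hbad
    · intro u hu
      rw [Finset.mem_coe, Finset.mem_filter] at hu
      rw [Finset.mem_coe, Finset.mem_filter]
      exact ⟨(hp u hu.1).1, hu.2⟩
    · intro u hu v hv huv
      rw [Finset.mem_coe, Finset.mem_filter] at hu hv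
      rw [← (hp u hu.1).2, ← (hp v hv.1).2, huv]
  -- good cells
  obtain ⟨T', hT'⟩ : ∃ T', T' = T.filter fun u => ¬ G.eval ((p u).1 : L) = 0 := ⟨_, rfl⟩
  have hmemT : ∀ u ∈ T', u ∈ T ∧ G.eval ((p u).1 : L) ≠ 0 := by
    intro u hu
    rw [hT', Finset.mem_filter] at hu
    exact hu
  set K : ℕ := (D + 1) ^ d * A0 + 1 with hK
  have hO : (D + 1) ^ d * (A0 * N) + 1 ≤ K * N := by
    calc (D + 1) ^ d * (A0 * N) + 1 ≤ (D + 1) ^ d * (A0 * N) + N := by omega
      _ = K * N := by rw [hK]; ring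
  have hclass : ∀ b ∈ T'.image (fun u : Fin d → ℤ => fun j => u j % 2),
      (T'.filter fun u => (fun j => u j % 2) = b).card ≤
      ((d ^ r * D + D) * K + 1) * (2 ^ d * (D + 1) ^ d * K ^ (r - 1)) * N ^ r := by
    intro b _
    obtain ⟨U, hU⟩ : ∃ U, U = T'.filter fun u => (fun j => u j % 2) = b := ⟨_, rfl⟩
    rw [← hU]
    have hmemU0 : ∀ u ∈ U, (u ∈ T ∧ G.eval ((p u).1 : L) ≠ 0) ∧ (fun j => u j % 2) = b := by
      intro u h1
      rw [hU, Finset.mem_filter] at h1
      exact ⟨hmemT _ h1.1, h1.2⟩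
    have hmemU : ∀ u : {u // u ∈ U}, (u.1 ∈ T ∧ G.eval ((p u.1).1 : L) ≠ 0) ∧
        (fun j => u.1 j % 2) = b := fun u => hmemU0 u.1 u.2
    have hpS : ∀ u : {u // u ∈ U}, p u.1 ∈ S ∧ φ (p u.1) = u.1 := fun u => hp u.1 (hmemU u).1.1
    have htop := hA0 L θ hθ {u // u ∈ U} (fun u => (p u.1).2) (fun u => u.1) y0 h N hh hN
      Subtype.val_injective
      (fun u j => by
        have h1 := hφ1 _ (hpS u).1 j
        rw [(hpS u).2] at h1
        exact h1)
      (fun u v j => by
        have h1 : u.1 j % 2 = b j := congrFun (hmemU u).2 j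
        have h2 : v.1 j % 2 = b j := congrFun (hmemU v).2 j
        show (2 : ℤ) ∣ u.1 j - v.1 j
        omega)
      (fun u j => by
        have h1 := hφ2 _ (hpS u).1 j
        rw [(hpS u).2] at h1
        exact h1)
    have hgood := cnt_main' (ι := {u // u ∈ U}) hr
      (fun j : {I : Fin r → Fin d // Function.Injective I} => j.1)
      (fun K hK => ⟨⟨K, hK⟩, rfl⟩) F hFD c hc hlt (fun u => ((p u.1).1 : L))
      (fun u => (p u.1).2) θ (A0 * N) htop
      (fun j u => hFq j _ (hpS u).1) (fun u => (hmemU u).1.2)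
    rw [Fintype.card_coe] at hgood
    refine hgood.trans ?_
    have e1 : (Fintype.card {I : Fin r → Fin d // Function.Injective I} * D + D) *
        ((D + 1) ^ d * (A0 * N) + 1) + 1 ≤ ((d ^ r * D + D) * K + 1) * N := by
      have h2 : (Fintype.card {I : Fin r → Fin d // Function.Injective I} * D + D) *
          ((D + 1) ^ d * (A0 * N) + 1) ≤ (d ^ r * D + D) * (K * N) :=
        Nat.mul_le_mul (Nat.add_le_add_right (Nat.mul_le_mul_right _ hJ) _) hO
      calc _ ≤ (d ^ r * D + D) * (K * N) + N := Nat.add_le_add h2 hN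
        _ = _ := by ring
    have e2 : 2 ^ d * (D + 1) ^ d * ((D + 1) ^ d * (A0 * N) + 1) ^ (r - 1) ≤
        2 ^ d * (D + 1) ^ d * (K * N) ^ (r - 1) :=
      Nat.mul_le_mul_left _ (Nat.pow_le_pow_left hO _)
    refine (Nat.mul_le_mul e1 e2).trans (le_of_eq ?_)
    obtain ⟨s, rfl⟩ : ∃ s, r = s + 1 := ⟨r - 1, by omega⟩
    rw [Nat.add_sub_cancel, mul_pow, pow_succ N]
    ring
  have himage : (T'.image (fun u : Fin d → ℤ => fun j => u j % 2)).card ≤ 2 ^ d := by
    have h1 : T'.image (fun u : Fin d → ℤ => fun j => u j % 2) ⊆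
        Fintype.piFinset fun _ : Fin d => ({0, 1} : Finset ℤ) := by
      intro b hb
      rw [Finset.mem_image] at hb
      obtain ⟨u, _, rfl⟩ := hb
      rw [Fintype.mem_piFinset]
      intro j
      rw [Finset.mem_insert, Finset.mem_singleton]
      show u j % 2 = 0 ∨ u j % 2 = 1
      omega
    refine (Finset.card_le_card h1).trans ?_
    rw [Fintype.card_piFinset, Finset.prod_const, Finset.card_univ, Fintype.card_fin]
    exact Nat.pow_le_pow_left Finset.card_le_two _
  have hgoodT := (Finset.card_le_mul_card_image (f := fun u : Fin d → ℤ => fun j => u j % 2) T'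
    _ hclass).trans (Nat.mul_le_mul_left _ himage)
  have hsplit : T.card = (T.filter fun u => G.eval ((p u).1 : L) = 0).card + T'.card := by
    rw [hT']
    exact (Finset.card_filter_add_card_filter_not (s := T)
      (fun u => G.eval ((p u).1 : L) = 0)).symm
  have hN1 : 1 ≤ N ^ r := Nat.one_le_pow _ _ hN
  have h3 : C1 * (d ^ r * D) ≤ C1 * (d ^ r * D) * N ^ r := Nat.le_mul_of_pos_right _ hN1
  rw [hsplit, add_mul]
  calc (T.filter fun u => G.eval ((p u).1 : L) = 0).card + T'.card
      ≤ C1 * (d ^ r * D) * N ^ r +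
        ((d ^ r * D + D) * K + 1) * (2 ^ d * (D + 1) ^ d * K ^ (r - 1)) * N ^ r * 2 ^ d :=
        Nat.add_le_add (hbadT.trans h3) hgoodT
    _ = _ := by ring

end Vale.Agent.P018.K2
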