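import Vale.Agent.P018.K2.Table

/-! # P018, K2 (staircase): a check of the tables in natural numbers (units `1/1000`). -/

namespace Vale.Agent.P018.K2

/-- binomial coefficients by the factorial formula. -/
def ch (n k : ℕ) : ℕ := n.descFactorial k / k.factorial

theorem ch_eq (n k : ℕ) : ch n k = n.choose k :=
  (Nat.choose_eq_descFactorial_div_factorial n k).symm

/-- conversion of a table in units of `1/1000`. -/
def mkSteps (l : List (ℕ × ℕ)) : List (ℚ × ℚ) :=
  l.map fun p => ((p.1 : ℚ) / 1000, (p.2 : ℚ) / 1000)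

/-- conversion of a table in units of `1/1000`. -/
def mkTab (t : List (ℕ × ℕ × List (ℕ × ℕ))) : List (ℚ × ℚ × List (ℚ × ℚ)) :=
  t.map fun r => ((r.1 : ℚ) / 1000, (r.2.1 : ℚ) / 1000, mkSteps r.2.2)

/-- lower bound for `1000^(r+1) (r+1)!` times the `j`-th term of `Gq`. -/
def nI (r j M L : ℕ) : ℕ :=
  ((List.range (j + 1)).map fun i =>
    (ch r (j + 1) * (r + 1) * ch r j * ch j i * M ^ (j - i) * L ^ (r - j + 1 + i)) /
      (r - j + 1 + i)).sum

/-- lower bound for `1000^(r+1) (r+1)! Gq`. -/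
def nG (r M L : ℕ) : ℕ := ((List.range r).map fun j => nI r j M L).sum

theorem list_sum_le (l : List ℕ) (f g : ℕ → ℚ) (h : ∀ i ∈ l, f i ≤ g i) :
    (l.map f).sum ≤ (l.map g).sum := List.sum_le_sum h

theorem nI_le (r j M K : ℕ) (hj : j < r) (hMK : M ≤ K) :
    (nI r j M (K - M) : ℚ) ≤ 1000 ^ (r + 1) * ((r + 1).factorial : ℚ) *
      ((r.choose (j + 1) : ℚ) / (j.factorial * (r - j).factorial : ℕ) *
        Iq (j + 1) (r - j) ((M : ℚ) / 1000) ((K : ℚ) / 1000)) := by
  have hfac : ((r + 1).factorial : ℚ) =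
      (r + 1) * (r.choose j : ℚ) * ((j.factorial * (r - j).factorial : ℕ) : ℚ) := by
    have h := Nat.choose_mul_factorial_mul_factorial (show j ≤ r by omega)
    have h2 : (r + 1).factorial = (r + 1) * (r.choose j * (j.factorial * (r - j).factorial)) := by
      rw [Nat.factorial_succ, ← h]
      ring
    rw [h2]
    push_cast
    ring
  have hne : ((j.factorial * (r - j).factorial : ℕ) : ℚ) ≠ 0 := by
    have := Nat.mul_pos (Nat.factorial_pos j) (Nat.factorial_pos (r - j))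
    exact_mod_cast this.ne'
  rw [hfac]
  have e1 : (1000 : ℚ) ^ (r + 1) *
      ((r + 1) * (r.choose j : ℚ) * ((j.factorial * (r - j).factorial : ℕ) : ℚ)) *
      ((r.choose (j + 1) : ℚ) / (j.factorial * (r - j).factorial : ℕ) *
        Iq (j + 1) (r - j) ((M : ℚ) / 1000) ((K : ℚ) / 1000)) =
      (1000 ^ (r + 1) * ((r + 1) * (r.choose j : ℚ) * r.choose (j + 1))) *
        Iq (j + 1) (r - j) ((M : ℚ) / 1000) ((K : ℚ) / 1000) := by
    field_simp
  rw [e1]
  unfold nI Iq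
  rw [← List.sum_map_mul_left, Nat.cast_list_sum, List.map_map]
  refine List.sum_le_sum fun i hi => ?_
  have hi' : i ≤ j := by
    have := List.mem_range.1 hi
    omega
  simp only [Function.comp, ch_eq, Nat.add_sub_cancel]
  refine Nat.cast_div_le.trans (le_of_eq ?_)
  have e2 : ((K : ℚ) / 1000 - (M : ℚ) / 1000) = ((K - M : ℕ) : ℚ) / 1000 := by
    rw [Nat.cast_sub hMK]
    ring
  rw [e2, div_pow, div_pow]
  have e3 : (1000 : ℚ) ^ (r + 1) = 1000 ^ (j - i) * 1000 ^ (r - j + 1 + i) := by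
    rw [← pow_add]
    congr 1
    omega
  rw [e3]
  push_cast
  have h1 : (1000 : ℚ) ^ (j - i) ≠ 0 := by positivity
  have h2 : (1000 : ℚ) ^ (r - j + 1 + i) ≠ 0 := by positivity
  field_simp

theorem nG_le (r M K : ℕ) (hMK : M ≤ K) :
    (nG r M (K - M) : ℚ) ≤ 1000 ^ (r + 1) * ((r + 1).factorial : ℚ) *
      Gq r ((M : ℚ) / 1000) ((K : ℚ) / 1000) := by
  unfold nG Gq
  rw [← List.sum_map_mul_left, Nat.cast_list_sum, List.map_map]
  refine List.sum_le_sum fun j hj => ?_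
  simp only [Function.comp]
  exact nI_le r j M K (List.mem_range.1 hj) hMK

/-- check of one step in natural numbers -/
def stepOKn (K r : ℕ) (p : ℕ × ℕ) : Bool :=
  decide (p.1 ≤ K) && decide (p.1 < 1000) && decide (0 < p.2) &&
    decide ((1000 - p.1) ^ (r + 1) * 1000 ^ r < p.2 ^ r * nG r p.1 (K - p.1))

def stepsOKn (K : ℕ) : ℕ → ℕ → List (ℕ × ℕ) → Bool
  | _, _, [] => true
  | r, β, p :: l => (decide (p.2 = β) || (decide (p.2 < β) && stepOKn K r p)) &&
      stepsOKn K (r + 1) p.2 l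

theorem stepOKn_imp (K r : ℕ) (p : ℕ × ℕ) (h : stepOKn K r p = true) :
    stepOK ((K : ℚ) / 1000) r ((p.1 : ℚ) / 1000, (p.2 : ℚ) / 1000) = true := by
  simp only [stepOKn, Bool.and_eq_true, decide_eq_true_eq] at h
  obtain ⟨⟨⟨h1, h2⟩, h3⟩, h4⟩ := h
  simp only [stepOK, Bool.and_eq_true, decide_eq_true_eq]
  have h1' : (p.1 : ℚ) ≤ K := by exact_mod_cast h1
  have h2' : (p.1 : ℚ) < 1000 := by exact_mod_cast h2
  have h3' : (0 : ℚ) < p.2 := by exact_mod_cast h3
  refine ⟨⟨⟨⟨by positivity, ?_⟩, ?_⟩, by positivity⟩, ?_⟩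
  · exact div_le_div_of_nonneg_right h1' (by norm_num)
  · rw [div_lt_one (by norm_num)]
    exact h2'
  · have h5 : (((1000 - p.1 : ℕ) : ℚ)) ^ (r + 1) * 1000 ^ r < (p.2 : ℚ) ^ r *
        (nG r p.1 (K - p.1) : ℚ) := by exact_mod_cast h4
    have h6 := nG_le r p.1 K h1
    have h7 : (p.2 : ℚ) ^ r * (nG r p.1 (K - p.1) : ℚ) ≤ (p.2 : ℚ) ^ r *
        (1000 ^ (r + 1) * ((r + 1).factorial : ℚ) *
          Gq r ((p.1 : ℚ) / 1000) ((K : ℚ) / 1000)) :=
      mul_le_mul_of_nonneg_left h6 (by positivity)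
    have h8 := lt_of_lt_of_le h5 h7
    rw [Nat.cast_sub h2.le] at h8
    have e1 : (1 - (p.1 : ℚ) / 1000) ^ (r + 1) =
        (((1000 : ℕ) : ℚ) - p.1) ^ (r + 1) * 1000 ^ r / (1000 ^ (r + 1) * 1000 ^ r) := by
      have : (1 - (p.1 : ℚ) / 1000) = (((1000 : ℕ) : ℚ) - p.1) / 1000 := by
        push_cast
        ring
      rw [this, div_pow]
      have h9 : (1000 : ℚ) ^ r ≠ 0 := by positivity
      field_simp
    have e2 : ((r + 1).factorial : ℚ) * ((p.2 : ℚ) / 1000) ^ r *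
        Gq r ((p.1 : ℚ) / 1000) ((K : ℚ) / 1000) =
        ((p.2 : ℚ) ^ r * (1000 ^ (r + 1) * ((r + 1).factorial : ℚ) *
          Gq r ((p.1 : ℚ) / 1000) ((K : ℚ) / 1000))) / (1000 ^ (r + 1) * 1000 ^ r) := by
      rw [div_pow]
      have h9 : (1000 : ℚ) ^ r ≠ 0 := by positivity
      have h10 : (1000 : ℚ) ^ (r + 1) ≠ 0 := by positivity
      field_simp
    rw [e1, e2]
    exact div_lt_div_of_pos_right h8 (by positivity)

theorem stepsOKn_imp (K : ℕ) (l : List (ℕ × ℕ)) : ∀ (r β : ℕ), stepsOKn K r β l = true →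
    stepsOK ((K : ℚ) / 1000) r ((β : ℚ) / 1000) (mkSteps l) = true := by
  induction l with
  | nil => intro r β _; rfl
  | cons p l ih =>
    intro r β h
    simp only [stepsOKn, Bool.and_eq_true, Bool.or_eq_true, decide_eq_true_eq] at h
    obtain ⟨h1, h2⟩ := h
    have h3 := ih (r + 1) p.2 h2
    have e : mkSteps (p :: l) = ((p.1 : ℚ) / 1000, (p.2 : ℚ) / 1000) :: mkSteps l := rfl
    rw [e]
    simp only [stepsOK, Bool.and_eq_true, Bool.or_eq_true, decide_eq_true_eq]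
    refine ⟨?_, h3⟩
    rcases h1 with h1 | ⟨h1, h4⟩
    · left
      rw [h1]
    · right
      refine ⟨?_, stepOKn_imp K r p h4⟩
      have : (p.2 : ℚ) < β := by exact_mod_cast h1
      exact div_lt_div_of_pos_right this (by norm_num)

/-- check of one row in natural numbers -/
def rowOKn (d0 k0 : ℕ) (row : ℕ × ℕ × List (ℕ × ℕ)) : Bool :=
  decide (0 < row.1) && decide (row.2.2.length + 2 ≤ d0) && stepsOKn row.1 2 1000 row.2.2 &&
    decide (row.2.1 * (2000 + (row.2.2.map Prod.snd).sum +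
      (d0 - 2 - row.2.2.length) * ((row.2.2.map Prod.snd).getLastD 1000)) < k0 * 1000000)

theorem mkSteps_sum (l : List (ℕ × ℕ)) : ((mkSteps l).map Prod.snd).sum =
    (((l.map Prod.snd).sum : ℕ) : ℚ) / 1000 := by
  induction l with
  | nil => simp [mkSteps]
  | cons p l ih =>
    have e : mkSteps (p :: l) = ((p.1 : ℚ) / 1000, (p.2 : ℚ) / 1000) :: mkSteps l := rfl
    rw [e, List.map_cons, List.sum_cons, ih, List.map_cons, List.sum_cons]
    push_cast
    ring

theorem mkSteps_last (l : List (ℕ × ℕ)) : ∀ β : ℕ, ((mkSteps l).map Prod.snd).getLastD ((β : ℚ) / 1000) =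
    (((l.map Prod.snd).getLastD β : ℕ) : ℚ) / 1000 := by
  induction l with
  | nil => intro β; rfl
  | cons p l ih =>
    intro β
    have e : mkSteps (p :: l) = ((p.1 : ℚ) / 1000, (p.2 : ℚ) / 1000) :: mkSteps l := rfl
    rw [e, List.map_cons, List.map_cons, List.getLastD_cons, List.getLastD_cons]
    exact ih p.2

theorem rowOKn_imp (d0 k0 : ℕ) (row : ℕ × ℕ × List (ℕ × ℕ)) (h : rowOKn d0 k0 row = true) :
    rowOK d0 k0 ((row.1 : ℚ) / 1000, (row.2.1 : ℚ) / 1000, mkSteps row.2.2) = true := by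
  simp only [rowOKn, Bool.and_eq_true, decide_eq_true_eq] at h
  obtain ⟨⟨⟨h1, h2⟩, h3⟩, h4⟩ := h
  simp only [rowOK, Bool.and_eq_true, decide_eq_true_eq]
  have hlen : (mkSteps row.2.2).length = row.2.2.length := by simp [mkSteps]
  have h1' : (0 : ℚ) < row.1 := by exact_mod_cast h1
  refine ⟨⟨⟨by positivity, by rw [hlen]; exact h2⟩, ?_⟩, ?_⟩
  · have h5 := stepsOKn_imp row.1 row.2.2 2 1000 h3
    have e : (((1000 : ℕ) : ℚ) / 1000) = 1 := by norm_num
    rw [e] at h5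
    exact h5
  · have h5 := mkSteps_last row.2.2 1000
    have e : (((1000 : ℕ) : ℚ) / 1000) = 1 := by norm_num
    rw [e] at h5
    rw [h5, mkSteps_sum, hlen]
    have h6 : ((row.2.1 : ℚ) * (2000 + ((row.2.2.map Prod.snd).sum : ℕ) +
      ((d0 - 2 - row.2.2.length : ℕ) : ℚ) * (((row.2.2.map Prod.snd).getLastD 1000 : ℕ) : ℚ))) <
        k0 * 1000000 := by exact_mod_cast h4
    have e2 : ((d0 - 2 - row.2.2.length : ℕ) : ℚ) = (d0 : ℚ) - 2 - row.2.2.length := by
      rw [Nat.sub_sub, Nat.cast_sub (by omega)]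
      push_cast
      ring
    rw [e2] at h6
    have e3 : (row.2.1 : ℚ) / 1000 * (2 + (((row.2.2.map Prod.snd).sum : ℕ) : ℚ) / 1000 +
        ((d0 : ℚ) - 2 - row.2.2.length) *
          ((((row.2.2.map Prod.snd).getLastD 1000 : ℕ) : ℚ) / 1000)) =
        ((row.2.1 : ℚ) * (2000 + ((row.2.2.map Prod.snd).sum : ℕ) +
          ((d0 : ℚ) - 2 - row.2.2.length) *
            (((row.2.2.map Prod.snd).getLastD 1000 : ℕ) : ℚ))) / 1000000 := by ring
    show (row.2.1 : ℚ) / 1000 * (2 + (((row.2.2.map Prod.snd).sum : ℕ) : ℚ) / 1000 +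
        ((d0 : ℚ) - 2 - row.2.2.length) *
          ((((row.2.2.map Prod.snd).getLastD 1000 : ℕ) : ℚ) / 1000)) < k0
    rw [e3, div_lt_iff₀ (by norm_num)]
    exact h6

/-- the rows cover `[κ, 1]` -/
def coverOKn : ℕ → List (ℕ × ℕ × List (ℕ × ℕ)) → Bool
  | κ, [] => decide (1000 ≤ κ)
  | κ, row :: tab => decide (row.1 ≤ κ) && coverOKn row.2.1 tab

theorem coverOKn_imp (t : List (ℕ × ℕ × List (ℕ × ℕ))) : ∀ (K : ℕ) (κ : ℚ),
    coverOKn K t = true → (K : ℚ) / 1000 ≤ κ → coverOK κ (mkTab t) = true := by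
  induction t with
  | nil =>
    intro K κ h hκ
    simp only [coverOKn, decide_eq_true_eq] at h
    have e : mkTab [] = [] := rfl
    rw [e]
    simp only [coverOK, decide_eq_true_eq]
    have : (1000 : ℚ) ≤ K := by exact_mod_cast h
    refine le_trans ?_ hκ
    rw [le_div_iff₀ (by norm_num)]
    linarith
  | cons row t ih =>
    intro K κ h hκ
    simp only [coverOKn, Bool.and_eq_true, decide_eq_true_eq] at h
    have e : mkTab (row :: t) = ((row.1 : ℚ) / 1000, (row.2.1 : ℚ) / 1000, mkSteps row.2.2) ::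
      mkTab t := rfl
    rw [e]
    simp only [coverOK, Bool.and_eq_true, decide_eq_true_eq]
    refine ⟨?_, ih row.2.1 _ h.2 le_rfl⟩
    refine le_trans ?_ hκ
    have : (row.1 : ℚ) ≤ K := by exact_mod_cast h.1
    exact div_le_div_of_nonneg_right this (by norm_num)

/-- check of a table in natural numbers -/
def tableOKn (d0 k0 : ℕ) (t : List (ℕ × ℕ × List (ℕ × ℕ))) : Bool :=
  decide (0 < d0) && t.all (rowOKn d0 k0) && coverOKn (k0 * 1000 / d0) t

theorem tableOKn_imp (d0 k0 : ℕ) (t : List (ℕ × ℕ × List (ℕ × ℕ)))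
    (h : tableOKn d0 k0 t = true) : tableOK d0 k0 (mkTab t) = true := by
  simp only [tableOKn, Bool.and_eq_true, decide_eq_true_eq] at h
  obtain ⟨⟨h0, h1⟩, h2⟩ := h
  unfold tableOK
  rw [Bool.and_eq_true]
  constructor
  · rw [List.all_eq_true] at h1 ⊢
    intro x hx
    obtain ⟨row, hrow, rfl⟩ := List.mem_map.1 hx
    exact rowOKn_imp d0 k0 row (h1 row hrow)
  · refine coverOKn_imp t _ _ h2 ?_
    have h3 : (0 : ℚ) < d0 := by exact_mod_cast h0
    rw [div_le_div_iff₀ (by norm_num) h3]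
    have h4 : k0 * 1000 / d0 * d0 ≤ k0 * 1000 := Nat.div_mul_le_self _ _
    exact_mod_cast h4

end Vale.Agent.P018.K2
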