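import Vale.Agent.P018.K.Defs

/-! # P018, K2 (staircase), module H1: the rational lower bound of the integral. -/

namespace Vale.Agent.P018.K2

open Polynomial Vale.Agent.P018.K Finset MeasureTheory

/-- `∫_m^κ u^(j-1) (u-m)^q du`, as a rational number (`q = r-j+1`). -/
def Iq (j q : ℕ) (m κ : ℚ) : ℚ :=
  ((List.range j).map fun i =>
    ((j - 1).choose i : ℚ) * m ^ (j - 1 - i) * (κ - m) ^ (q + 1 + i) / (q + 1 + i : ℕ)).sum

/-- the scaled integral `w^r * Jint r m w k`, `κ = w k`. -/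
def Gq (r : ℕ) (m κ : ℚ) : ℚ :=
  ((List.range r).map fun j =>
    (r.choose (j + 1) : ℚ) / (j.factorial * (r - j).factorial : ℕ) * Iq (j + 1) (r - j) m κ).sum

/-- a list sum over `List.range` is a finset sum -/
theorem jg_sum (n : ℕ) (f : ℕ → ℚ) : ((List.range n).map f).sum = ∑ i ∈ Finset.range n, f i := rfl

/-- one term of the integral, after the substitution `v = w u` -/
theorem jg_term (m w k : ℝ) (hw : 0 < w) (hm : 0 ≤ m) (hmk : m ≤ w * k) (p q : ℕ) (hq : q ≠ 0) :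
    w ^ (p + 1) * ∫ u in (0 : ℝ)..k, u ^ p * (max (w * u - m) 0) ^ q =
      ∫ v in m..(w * k), v ^ p * (v - m) ^ q := by
  have h1 : ∫ u in (0 : ℝ)..k, u ^ p * (max (w * u - m) 0) ^ q =
      ∫ u in (0 : ℝ)..k, (fun v : ℝ => (v / w) ^ p * (max (v - m) 0) ^ q) (w * u) := by
    refine intervalIntegral.integral_congr fun u _ => ?_
    simp only
    rw [mul_div_cancel_left₀ _ hw.ne']
  have h0 := intervalIntegral.integral_comp_mul_left (a := 0) (b := k)
    (fun v : ℝ => (v / w) ^ p * (max (v - m) 0) ^ q) hw.ne'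
  rw [h1, h0, mul_zero, smul_eq_mul]
  have hc : Continuous fun v : ℝ => (v / w) ^ p * (max (v - m) 0) ^ q := by fun_prop
  rw [← intervalIntegral.integral_add_adjacent_intervals (hc.intervalIntegrable 0 m)
    (hc.intervalIntegrable m (w * k))]
  have h2 : ∫ v in (0 : ℝ)..m, (v / w) ^ p * (max (v - m) 0) ^ q = 0 := by
    have h5 : ∫ v in (0 : ℝ)..m, (v / w) ^ p * (max (v - m) 0) ^ q = ∫ v in (0 : ℝ)..m, (0 : ℝ) := by
      refine intervalIntegral.integral_congr fun v hv => ?_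
      rw [Set.uIcc_of_le hm] at hv
      show (v / w) ^ p * (max (v - m) 0) ^ q = 0
      rw [max_eq_right (by linarith [hv.2]), zero_pow hq, mul_zero]
    rw [h5, intervalIntegral.integral_zero]
  have h3 : ∫ v in m..(w * k), (v / w) ^ p * (max (v - m) 0) ^ q =
      ∫ v in m..(w * k), (w ^ p)⁻¹ * (v ^ p * (v - m) ^ q) := by
    refine intervalIntegral.integral_congr fun v hv => ?_
    rw [Set.uIcc_of_le hmk] at hv
    show (v / w) ^ p * (max (v - m) 0) ^ q = (w ^ p)⁻¹ * (v ^ p * (v - m) ^ q)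
    rw [max_eq_left (by linarith [hv.1]), div_pow]
    field_simp
  rw [h2, h3, zero_add, intervalIntegral.integral_const_mul]
  field_simp
  ring

/-- the rational number `Iq` is the integral -/
theorem jg_Iq (j q : ℕ) (m κ : ℚ) : ((Iq (j + 1) q m κ : ℚ) : ℝ) =
    ∫ v in (m : ℝ)..(κ : ℝ), v ^ j * (v - m) ^ q := by
  have h1 : ∀ v : ℝ, v ^ j * (v - m) ^ q = ∑ i ∈ Finset.range (j + 1),
      ((j.choose i : ℝ) * (m : ℝ) ^ (j - i)) * (v - m) ^ (q + i) := by
    intro v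
    have h2 : v ^ j = ((v - m) + m) ^ j := by rw [sub_add_cancel]
    rw [h2, add_pow, Finset.sum_mul]
    refine Finset.sum_congr rfl fun i _ => ?_
    rw [pow_add]
    ring
  have h3 : ∀ s : ℕ, ∫ v in (m : ℝ)..(κ : ℝ), (v - (m : ℝ)) ^ s =
      ((κ : ℝ) - m) ^ (s + 1) / (s + 1 : ℕ) := by
    intro s
    rw [intervalIntegral.integral_comp_sub_right (fun x : ℝ => x ^ s) (m : ℝ), integral_pow,
      sub_self]
    simp
  simp only [h1]
  rw [intervalIntegral.integral_finsetSum (fun i _ => Continuous.intervalIntegrable (by fun_prop) _ _)]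
  unfold Iq
  rw [jg_sum, Rat.cast_sum]
  refine Finset.sum_congr rfl fun i _ => ?_
  rw [intervalIntegral.integral_const_mul, h3]
  have e1 : j + 1 - 1 = j := rfl
  have e2 : q + i + 1 = q + 1 + i := by ring
  rw [e1, e2]
  push_cast
  ring

/-- MODULE H1. -/
theorem Jint_ge (r : ℕ) (m κ : ℚ) (hm : 0 ≤ m) (hmκ : m ≤ κ) (w k : ℝ) (hw : 0 < w)
    (hk : 0 ≤ k) (hκ : (κ : ℝ) ≤ w * k) : (Gq r m κ : ℝ) / w ^ r ≤ Jint r m w k := by
  have hm' : (0 : ℝ) ≤ (m : ℝ) := by exact_mod_cast hm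
  have hmκ' : (m : ℝ) ≤ (κ : ℝ) := by exact_mod_cast hmκ
  have hmk : (m : ℝ) ≤ w * k := hmκ'.trans hκ
  rw [div_le_iff₀ (pow_pos hw r)]
  unfold Gq Jint
  rw [jg_sum, Rat.cast_sum, Finset.sum_mul]
  have hs : ∀ F : ℕ → ℝ, ∑ j ∈ Finset.Icc 1 r, F j = ∑ j ∈ Finset.range r, F (j + 1) := by
    intro F
    rw [Finset.range_eq_Ico, Finset.sum_Ico_add' F 0 r 1]
    refine Finset.sum_congr ?_ fun _ _ => rfl
    ext x
    simp only [Finset.mem_Icc, Finset.mem_Ico]
    omega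
  rw [hs]
  refine Finset.sum_le_sum fun j hj => ?_
  have hjr : j < r := Finset.mem_range.1 hj
  have hq : r - j ≠ 0 := by omega
  have e1 : j + 1 - 1 = j := rfl
  have e2 : r - (j + 1) + 1 = r - j := by omega
  rw [e1, e2]
  have ht := jg_term (m : ℝ) w k hw hm' hmk j (r - j) hq
  have hle : ((Iq (j + 1) (r - j) m κ : ℚ) : ℝ) ≤
      w ^ (j + 1) * ∫ u in (0 : ℝ)..k, u ^ j * (max (w * u - m) 0) ^ (r - j) := by
    rw [ht, jg_Iq]
    have hc : Continuous fun v : ℝ => v ^ j * (v - m) ^ (r - j) := by fun_prop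
    rw [← intervalIntegral.integral_add_adjacent_intervals (hc.intervalIntegrable (m : ℝ) (κ : ℝ))
      (hc.intervalIntegrable (κ : ℝ) (w * k))]
    have h0 : 0 ≤ ∫ v in (κ : ℝ)..(w * k), v ^ j * (v - m) ^ (r - j) := by
      refine intervalIntegral.integral_nonneg hκ fun v hv => ?_
      have h1 : (0 : ℝ) ≤ v - m := by linarith [hv.1]
      have h2 : (0 : ℝ) ≤ v := by linarith
      positivity
    linarith
  have hpos : (0 : ℝ) ≤ (r.choose (j + 1) : ℝ) / (j.factorial * (r - j).factorial : ℕ) := by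
    positivity
  push_cast at hpos ⊢
  refine (mul_le_mul_of_nonneg_left hle hpos).trans (le_of_eq ?_)
  have e3 : w ^ r = w ^ (j + 1) * w ^ (r - (j + 1)) := by
    rw [← pow_add]
    congr 1
    omega
  have hw' : w ^ (r - (j + 1)) ≠ 0 := (pow_pos hw _).ne'
  have hf1 : (j.factorial : ℝ) ≠ 0 := by exact_mod_cast (Nat.factorial_pos _).ne'
  have hf2 : ((r - j).factorial : ℝ) ≠ 0 := by exact_mod_cast (Nat.factorial_pos _).ne'
  rw [e3]
  field_simp

end Vale.Agent.P018.K2
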