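import Vale.Agent.P018.K2.Local2
import Vale.Agent.P018.K2.JintGe

/-! # P018, K2 (staircase), module H: rational tables. -/

namespace Vale.Agent.P018.K2

open Polynomial Vale.Agent.P018.K Finset

/-- the `r`-th step of a row with left end `κ0` is correct. -/
def stepOK (κ0 : ℚ) (r : ℕ) (p : ℚ × ℚ) : Bool :=
  decide (0 ≤ p.1) && decide (p.1 ≤ κ0) && decide (p.1 < 1) && decide (0 < p.2) &&
    decide ((1 - p.1) ^ (r + 1) < ((r + 1).factorial : ℚ) * p.2 ^ r * Gq r p.1 κ0)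

/-- each step repeats the previous `β`, or is correct with a smaller `β`. -/
def stepsOK (κ0 : ℚ) : ℕ → ℚ → List (ℚ × ℚ) → Bool
  | _, _, [] => true
  | r, β, p :: l => (decide (p.2 = β) || (decide (p.2 < β) && stepOK κ0 r p)) &&
      stepsOK κ0 (r + 1) p.2 l

/-- one row: interval `[κ0, κ1]`, steps `(m_r, β_r)` for `r = 2, ..., l.length + 1`. -/
def rowOK (d0 k0 : ℕ) (row : ℚ × ℚ × List (ℚ × ℚ)) : Bool :=
  decide (0 < row.1) && decide (row.2.2.length + 2 ≤ d0) && stepsOK row.1 2 1 row.2.2 &&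
    decide (row.2.1 * (2 + (row.2.2.map Prod.snd).sum +
      ((d0 : ℚ) - 2 - row.2.2.length) * ((row.2.2.map Prod.snd).getLastD 1)) < k0)

/-- the rows cover `[κ, 1]`. -/
def coverOK : ℚ → List (ℚ × ℚ × List (ℚ × ℚ)) → Bool
  | κ, [] => decide (1 ≤ κ)
  | κ, row :: tab => decide (row.1 ≤ κ) && coverOK row.2.1 tab

/-- the table is correct for the base pair `(d0, k0)`. -/
def tableOK (d0 k0 : ℕ) (tab : List (ℚ × ℚ × List (ℚ × ℚ))) : Bool :=
  tab.all (rowOK d0 k0) && coverOK ((k0 : ℚ) / d0) tab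

/-- the staircase of a row: `β, β_2, β_3, ..., β_R, β_R, ...` -/
def tb : ℚ → List (ℚ × ℚ) → ℕ → ℚ
  | β, [], _ => β
  | β, _ :: _, 0 => β
  | _, p :: l, i + 1 => tb p.2 l i

theorem tb_zero (β : ℚ) (l : List (ℚ × ℚ)) : tb β l 0 = β := by
  cases l <;> rfl

theorem tb_ge (l : List (ℚ × ℚ)) : ∀ (β : ℚ) (i : ℕ), l.length ≤ i →
    tb β l i = (l.map Prod.snd).getLastD β := by
  induction l with
  | nil => intro β i _; rfl
  | cons p l ih =>
    intro β i hi
    cases i with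
    | zero => simp at hi
    | succ i =>
      rw [tb, ih p.2 i (by simpa using hi)]
      cases l with
      | nil => rfl
      | cons q l => simp [List.getLast?_cons]

theorem tb_anti (κ0 : ℚ) (l : List (ℚ × ℚ)) : ∀ (r : ℕ) (β : ℚ), stepsOK κ0 r β l = true →
    ∀ i, tb β l (i + 1) ≤ tb β l i := by
  induction l with
  | nil => intro r β _ i; exact le_rfl
  | cons p l ih =>
    intro r β h i
    rw [stepsOK, Bool.and_eq_true, Bool.or_eq_true, Bool.and_eq_true, decide_eq_true_eq,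
      decide_eq_true_eq] at h
    cases i with
    | zero =>
      show tb p.2 l 0 ≤ β
      rw [tb_zero]
      rcases h.1 with h1 | h1
      · exact h1.le
      · exact h1.1.le
    | succ i => exact ih (r + 1) p.2 h.2 i

theorem stepOK_pos {κ0 : ℚ} {r : ℕ} {p : ℚ × ℚ} (h : stepOK κ0 r p = true) :
    0 ≤ p.1 ∧ p.1 ≤ κ0 ∧ p.1 < 1 ∧ 0 < p.2 ∧
      (1 - p.1) ^ (r + 1) < ((r + 1).factorial : ℚ) * p.2 ^ r * Gq r p.1 κ0 := by
  unfold stepOK at h
  simp only [Bool.and_eq_true, decide_eq_true_eq] at h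
  exact ⟨h.1.1.1.1, h.1.1.1.2, h.1.1.2, h.1.2, h.2⟩

theorem tb_pos (κ0 : ℚ) (l : List (ℚ × ℚ)) : ∀ (r : ℕ) (β : ℚ), 0 < β →
    stepsOK κ0 r β l = true → ∀ i, 0 < tb β l i := by
  induction l with
  | nil => intro r β hβ _ i; exact hβ
  | cons p l ih =>
    intro r β hβ h i
    rw [stepsOK, Bool.and_eq_true, Bool.or_eq_true, Bool.and_eq_true, decide_eq_true_eq,
      decide_eq_true_eq] at h
    cases i with
    | zero => rw [tb_zero]; exact hβ
    | succ i =>
      refine ih (r + 1) p.2 ?_ h.2 i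
      rcases h.1 with h1 | h1
      · rw [h1]; exact hβ
      · exact (stepOK_pos h1.2).2.2.2.1

theorem tb_step (κ0 : ℚ) (l : List (ℚ × ℚ)) : ∀ (r : ℕ) (β : ℚ), stepsOK κ0 r β l = true →
    ∀ i, tb β l (i + 1) < tb β l i → ∃ p : ℚ × ℚ, stepOK κ0 (r + i) p = true ∧
      p.2 = tb β l (i + 1) := by
  induction l with
  | nil => intro r β _ i h; exact absurd h (lt_irrefl _)
  | cons p l ih =>
    intro r β h i hi
    rw [stepsOK, Bool.and_eq_true, Bool.or_eq_true, Bool.and_eq_true, decide_eq_true_eq,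
      decide_eq_true_eq] at h
    cases i with
    | zero =>
      have hi' : tb p.2 l 0 < β := hi
      rw [tb_zero] at hi'
      rcases h.1 with h1 | h1
      · exact absurd h1 hi'.ne
      · refine ⟨p, h1.2, ?_⟩
        show p.2 = tb p.2 l 0
        rw [tb_zero]
    | succ i =>
      obtain ⟨q, h1, h2⟩ := ih (r + 1) p.2 h.2 i hi
      refine ⟨q, ?_, h2⟩
      rw [show r + (i + 1) = r + 1 + i by ring]
      exact h1

theorem tb_sum (l : List (ℚ × ℚ)) : ∀ β : ℚ,
    ∑ i ∈ range (l.length + 1), tb β l i = β + (l.map Prod.snd).sum := by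
  induction l with
  | nil => intro β; simp [tb]
  | cons p l ih =>
    intro β
    rw [List.length_cons, sum_range_succ', tb_zero]
    have h : ∀ i, tb β (p :: l) (i + 1) = tb p.2 l i := fun i => rfl
    rw [sum_congr rfl fun i _ => h i, ih p.2, List.map_cons, List.sum_cons]
    ring

theorem cover_row (κ : ℝ) (hκ : κ ≤ 1) (tab : List (ℚ × ℚ × List (ℚ × ℚ))) : ∀ κ' : ℚ,
    coverOK κ' tab = true → (κ' : ℝ) < κ ∨ ((κ' : ℝ) ≤ κ ∧ tab ≠ []) →
      ∃ row ∈ tab, (row.1 : ℝ) ≤ κ ∧ κ ≤ (row.2.1 : ℝ) := by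
  induction tab with
  | nil =>
    intro κ' h1 h2
    rw [coverOK, decide_eq_true_eq] at h1
    rcases h2 with h2 | h2
    · have : (1 : ℝ) ≤ κ' := by exact_mod_cast h1
      linarith
    · exact absurd rfl h2.2
  | cons row tab ih =>
    intro κ' h1 h2
    rw [coverOK, Bool.and_eq_true, decide_eq_true_eq] at h1
    have h3 : (κ' : ℝ) ≤ κ := by
      rcases h2 with h2 | h2
      · exact h2.le
      · exact h2.1
    have h4 : (row.1 : ℝ) ≤ κ' := by exact_mod_cast h1.1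
    rcases le_or_gt κ (row.2.1 : ℝ) with h5 | h5
    · exact ⟨row, List.mem_cons_self, h4.trans h3, h5⟩
    · obtain ⟨row', h6, h7⟩ := ih row.2.1 h1.2 (Or.inl h5)
      exact ⟨row', List.mem_cons_of_mem _ h6, h7⟩

/-- the criterion at a step of the table -/
theorem crit_of_step (d k r : ℕ) (hd : 1 ≤ d) (hk : 1 ≤ k) (hr : 1 ≤ r) (a : ℝ) (ha : 0 < a)
    {κ0 : ℚ} (hκ : (κ0 : ℝ) ≤ a / d * k) {p : ℚ × ℚ} (h : stepOK κ0 r p = true) :
    Crit d k r a (a / d * (p.2 : ℝ)) := by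
  obtain ⟨h1, h2, h3, h4, h5⟩ := stepOK_pos h
  have hd0 : (0 : ℝ) < d := by exact_mod_cast hd
  have hw : 0 < a / d := by positivity
  have hβ : (0 : ℝ) < p.2 := by exact_mod_cast h4
  refine crit_of_Jint d k r hd hk hr a _ (p.1 : ℝ) ha (by positivity) (by exact_mod_cast h1)
    (by exact_mod_cast h3) ?_
  refine lt_of_lt_of_le ?_ (Jint_ge r p.1 κ0 h1 h2 (a / d) k hw (Nat.cast_nonneg k) hκ)
  have h6 : (1 - (p.1 : ℝ)) ^ (r + 1) < ((r + 1).factorial : ℝ) * (p.2 : ℝ) ^ r *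
      (Gq r p.1 κ0 : ℝ) := by exact_mod_cast h5
  rw [mul_pow, div_lt_div_iff₀ (by positivity) (by positivity)]
  have h7 : 0 < (a / d) ^ r := by positivity
  have h8 := mul_lt_mul_of_pos_right h6 h7
  refine h8.trans_le (le_of_eq ?_)
  ring

/-- MODULE H2. A correct table for `(d0, k0)` gives all `(d, k)` with `d ≥ d0`,
`k / d ≥ k0 / d0`.

Given `a ∈ [1, d/k]`, `κ = k a / d ∈ [k0/d0, 1]`, take the row with `κ0 ≤ κ ≤ κ1`, and
`b r = (a/d) β' r`, `β' 0 = β' 1 = 1`, `β' r = β_r` for `2 ≤ r ≤ R = length + 1`,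
`β' r = β_R` for `r > R`. `Crit` follows from `crit_of_Jint` and `Jint_ge`. The sum is
`(κ/k) (S + (d-1-R) β_R)`, `S = 2 + ∑ β_r`, and
`(S + (d-1-R) β_R) / k ≤ (S + (d0-1-R) β_R) / k0` because `S ≥ (R+1) β_R`. -/
theorem adm2_of_table (d0 k0 : ℕ) (hk0 : 1 ≤ k0) (tab : List (ℚ × ℚ × List (ℚ × ℚ)))
    (htab : tab ≠ [])
    (h : tableOK d0 k0 tab = true) (d k : ℕ) (hk : 1 ≤ k) (hkd : k ≤ d) (hd : d0 ≤ d)
    (hr : k0 * d ≤ k * d0) (a : ℝ) (ha : 1 ≤ a) (ha2 : a ≤ (d : ℝ) / k) : Adm2 d k a := by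
  have hd1 : 1 ≤ d := hk.trans hkd
  have hd0R : (0 : ℝ) < d := by exact_mod_cast hd1
  have hkR : (0 : ℝ) < k := by exact_mod_cast hk
  have hk0R : (0 : ℝ) < k0 := by exact_mod_cast hk0
  have hrR : (k0 : ℝ) * d ≤ k * d0 := by exact_mod_cast hr
  have hdR : (d0 : ℝ) ≤ d := by exact_mod_cast hd
  have ha0 : 0 < a := by linarith
  have hd00 : (0 : ℝ) < d0 := by
    by_contra hcon
    have h1 : (k : ℝ) * d0 ≤ 0 := mul_nonpos_of_nonneg_of_nonpos hkR.le (not_lt.1 hcon)
    have h2 : 0 < (k0 : ℝ) * d := by positivity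
    linarith
  obtain ⟨w, hw⟩ : ∃ w : ℝ, w = a / d := ⟨_, rfl⟩
  have hw0 : 0 < w := by rw [hw]; positivity
  obtain ⟨κ, hκ⟩ : ∃ κ : ℝ, κ = w * k := ⟨_, rfl⟩
  have hκ0 : 0 < κ := by rw [hκ]; positivity
  have hκ1 : κ ≤ 1 := by
    rw [hκ, hw]
    rw [le_div_iff₀ hkR] at ha2
    rw [div_mul_eq_mul_div, div_le_one hd0R]
    exact ha2
  have hκ2 : ((k0 : ℝ) / d0) ≤ κ := by
    rw [hκ, hw, div_le_iff₀ hd00, div_mul_eq_mul_div, div_mul_eq_mul_div, le_div_iff₀ hd0R]
    calc (k0 : ℝ) * d ≤ k * d0 := hrR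
      _ = 1 * (k * d0) := (one_mul _).symm
      _ ≤ a * (k * d0) := mul_le_mul_of_nonneg_right ha (by positivity)
      _ = a * k * d0 := by ring
  unfold tableOK at h
  rw [Bool.and_eq_true, List.all_eq_true] at h
  obtain ⟨row, hrow, hr1, hr2⟩ := cover_row κ hκ1 tab _ h.2 (Or.inr ⟨by push_cast; exact hκ2, htab⟩)
  have hok := h.1 row hrow
  unfold rowOK at hok
  simp only [Bool.and_eq_true, decide_eq_true_eq] at hok
  obtain ⟨⟨⟨h1, h2⟩, h3⟩, h4⟩ := hok
  obtain ⟨κ0, κ1, l⟩ := row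
  simp only at h1 h2 h3 h4 hr1 hr2
  -- the staircase
  obtain ⟨β, hβ⟩ : ∃ β : ℕ → ℚ, β = tb 1 l := ⟨_, rfl⟩
  have hanti : ∀ i, β (i + 1) ≤ β i := by rw [hβ]; exact tb_anti κ0 l 2 1 h3
  have hpos : ∀ i, 0 < β i := by rw [hβ]; exact tb_pos κ0 l 2 1 one_pos h3
  have hA : Antitone β := antitone_nat_of_succ_le hanti
  have hβ0 : β 0 = 1 := by rw [hβ, tb_zero]
  obtain ⟨L, hL⟩ : ∃ L : ℚ, L = (l.map Prod.snd).getLastD 1 := ⟨_, rfl⟩
  have hlast : ∀ i, l.length ≤ i → β i = L := by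
    intro i hi
    rw [hβ, hL, tb_ge l 1 i hi]
  have hLle : ∀ i, L ≤ β i := by
    intro i
    rcases le_total i l.length with hi | hi
    · rw [← hlast l.length le_rfl]
      exact hA hi
    · rw [hlast i hi]
  refine ⟨fun r => w * (match r with
    | 0 => 1
    | r + 1 => (β r : ℝ)), ?_, ?_, ?_, ?_, ?_⟩
  · simp only [mul_one]
    exact hw
  · intro r
    cases r with
    | zero =>
      simp only
      rw [hβ0]
      simp
    | succ r =>
      simp only
      exact mul_le_mul_of_nonneg_left (by exact_mod_cast hanti r) hw0.le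
  · rcases Nat.exists_eq_succ_of_ne_zero (by omega : d ≠ 0) with ⟨d', rfl⟩
    rw [Nat.succ_sub_one]
    cases d' with
    | zero => simpa using hw0
    | succ r =>
      have : (0 : ℝ) < β r := by exact_mod_cast hpos r
      simp only
      positivity
  · intro r hr1' hr2' hlt
    obtain ⟨i, rfl⟩ : ∃ i, r = i + 1 := ⟨r - 1, by omega⟩
    rw [Nat.add_sub_cancel] at hlt
    cases i with
    | zero =>
      exfalso
      simp only [hβ0] at hlt
      simp at hlt
    | succ i =>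
      simp only at hlt
      have hlt' : β (i + 1) < β i := by
        have := lt_of_mul_lt_mul_left hlt hw0.le
        exact_mod_cast this
      rw [hβ] at hlt'
      obtain ⟨p, hp1, hp2⟩ := tb_step κ0 l 2 1 h3 i hlt'
      rw [show 2 + i = i + 1 + 1 by ring] at hp1
      have := crit_of_step d k (i + 1 + 1) hd1 hk (by omega) a ha0 (κ0 := κ0)
        (by rw [← hw, ← hκ]; exact hr1) hp1
      simp only
      rw [← hw, hp2] at this
      rw [hβ]
      exact this
  · -- the sum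
    obtain ⟨e, he⟩ : ∃ e, d = l.length + 2 + e := ⟨d - (l.length + 2), by omega⟩
    rw [← Finset.mul_sum]
    have hsum : ∑ r ∈ range d, (match r with
        | 0 => (1 : ℝ)
        | r + 1 => (β r : ℝ)) = 2 + ((l.map Prod.snd).sum : ℚ) + e * (L : ℝ) := by
      rw [he, show l.length + 2 + e = (l.length + 1 + e) + 1 by ring, sum_range_succ']
      simp only
      rw [sum_range_add]
      have hs1 : ∑ i ∈ range (l.length + 1), (β i : ℝ) = 1 + ((l.map Prod.snd).sum : ℚ) := by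
        rw [← Rat.cast_sum, hβ, tb_sum l 1]
        push_cast
        ring
      have hs2 : ∑ i ∈ range e, (β (l.length + 1 + i) : ℝ) = e * (L : ℝ) := by
        rw [sum_congr rfl fun i _ => by rw [hlast (l.length + 1 + i) (by omega)], sum_const,
          card_range, nsmul_eq_mul]
      rw [hs1, hs2]
      ring
    rw [hsum]
    -- the bound `S ≥ (length + 2) L`
    have hS0 : ((l.length : ℚ) + 2) * L ≤ 2 + (l.map Prod.snd).sum := by
      have hs1 : ∑ i ∈ range (l.length + 1), β i = 1 + (l.map Prod.snd).sum := by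
        rw [hβ]; exact tb_sum l 1
      have hs2 : ((l.length + 1 : ℕ) : ℚ) * L ≤ ∑ i ∈ range (l.length + 1), β i := by
        rw [← nsmul_eq_mul]
        have := Finset.card_nsmul_le_sum (range (l.length + 1)) β L fun i _ => hLle i
        rwa [card_range] at this
      have hs3 : L ≤ 1 := by rw [← hβ0]; exact hLle 0
      rw [hs1] at hs2
      push_cast at hs2
      linarith
    obtain ⟨S, hS⟩ : ∃ S : ℝ, S = 2 + (((l.map Prod.snd).sum : ℚ) : ℝ) := ⟨_, rfl⟩
    have hS1 : ((l.length : ℝ) + 2) * (L : ℝ) ≤ S := by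
      rw [hS]
      exact_mod_cast hS0
    have hL0 : (0 : ℝ) < L := by
      rw [← hlast l.length le_rfl]
      exact_mod_cast hpos _
    have h4' : (κ1 : ℝ) * (S + ((d0 : ℝ) - 2 - l.length) * (L : ℝ)) < k0 := by
      rw [hS, hL]
      exact_mod_cast h4
    have hdR2 : (d : ℝ) = l.length + 2 + e := by exact_mod_cast he
    rw [← hS]
    have hκ1p : (0 : ℝ) < κ1 := hκ0.trans_le hr2
    have hSp : 0 ≤ S + e * (L : ℝ) := by
      have h7 : 0 ≤ ((l.length : ℝ) + 2) * (L : ℝ) := by positivity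
      have h8 : 0 ≤ (e : ℝ) * (L : ℝ) := by positivity
      linarith
    have e1 : (S + e * (L : ℝ)) * d0 ≤ d * (S + ((d0 : ℝ) - 2 - l.length) * (L : ℝ)) := by
      have h5 : 0 ≤ ((d : ℝ) - d0) * (S - ((l.length : ℝ) + 2) * L) :=
        mul_nonneg (by linarith) (by linarith)
      have h6 : (e : ℝ) = d - 2 - l.length := by linarith
      rw [h6]
      linarith
    have e2 : κ1 * (S + e * (L : ℝ)) * d0 < k * d0 := by
      calc κ1 * (S + e * (L : ℝ)) * d0 = κ1 * ((S + e * (L : ℝ)) * d0) := by ring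
        _ ≤ κ1 * (d * (S + ((d0 : ℝ) - 2 - l.length) * (L : ℝ))) :=
            mul_le_mul_of_nonneg_left e1 hκ1p.le
        _ = d * (κ1 * (S + ((d0 : ℝ) - 2 - l.length) * (L : ℝ))) := by ring
        _ < d * k0 := mul_lt_mul_of_pos_left h4' hd0R
        _ = k0 * d := by ring
        _ ≤ k * d0 := hrR
    have e3 : κ1 * (S + e * (L : ℝ)) < k := lt_of_mul_lt_mul_right e2 hd00.le
    have e4 : w * (S + e * (L : ℝ)) * k < 1 * k := by
      calc w * (S + e * (L : ℝ)) * k = κ * (S + e * (L : ℝ)) := by rw [hκ]; ring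
        _ ≤ κ1 * (S + e * (L : ℝ)) := mul_le_mul_of_nonneg_right hr2 hSp
        _ < k := e3
        _ = 1 * k := (one_mul _).symm
    exact lt_of_mul_lt_mul_right e4 hkR.le

end Vale.Agent.P018.K2
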