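import Vale.Agent.P018.K2.Final2
import Vale.Agent.P018.K2.Tables

/-! # P018, K2 (staircase): the range of pairs `(d, k)`. -/

namespace Vale.Agent.P018.K2

open Polynomial Filter Topology Asymptotics Vale.Agent.P018.K

theorem main_of_table (d0 k0 : ℕ) (hk0 : 1 ≤ k0) (tab : List (ℚ × ℚ × List (ℚ × ℚ)))
    (htab : tab ≠ []) (h : tableOK d0 k0 tab = true) (f : ℤ[X]) (k : ℕ) (hk : 2 ≤ k)
    (hirr : Irreducible (f.map (Int.castRingHom ℚ)))
    (hloc : ∀ p : ℕ, p.Prime → rho f (p ^ k) < p ^ k)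
    (hd : d0 ≤ f.natDegree) (hr : k0 * f.natDegree ≤ k * d0) :
    0 < density f k ∧
    (fun X : ℕ => (countPF f k X : ℝ) - density f k * X) =o[atTop] (fun X : ℕ => (X : ℝ)) :=
  main_of_adm2 f k hk hirr hloc fun hkd a ha ha2 =>
    adm2_of_table d0 k0 hk0 tab htab h f.natDegree k (by omega) hkd.le hd hr a ha ha2

/-- the asymptotic formula in the explicit ranges. -/
theorem main_stair (f : ℤ[X]) (k : ℕ) (hk : 2 ≤ k)
    (hirr : Irreducible (f.map (Int.castRingHom ℚ)))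
    (hloc : ∀ p : ℕ, p.Prime → rho f (p ^ k) < p ^ k)
    (hr : f.natDegree < 2 * k ∨ (7 ≤ f.natDegree ∧ f.natDegree ≤ 2 * k) ∨
      (11 ≤ f.natDegree ∧ 5 * f.natDegree ≤ 11 * k) ∨
      (14 ≤ f.natDegree ∧ 3 * f.natDegree ≤ 7 * k) ∨
      (15 ≤ f.natDegree ∧ 2 * f.natDegree ≤ 5 * k) ∨
      (36 ≤ f.natDegree ∧ f.natDegree ≤ 3 * k)) :
    0 < density f k ∧
    (fun X : ℕ => (countPF f k X : ℝ) - density f k * X) =o[atTop] (fun X : ℕ => (X : ℝ)) := by
  by_cases h0 : f.natDegree < 2 * k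
  · exact main_half f k hk hirr hloc (Or.inl h0)
  rcases hr with h | ⟨h1, h2⟩ | ⟨h1, h2⟩ | ⟨h1, h2⟩ | ⟨h1, h2⟩ | ⟨h1, h2⟩
  · exact absurd h h0
  · exact main_of_table 8 4 (by norm_num) (mkTab tab8) (by simp [mkTab, tab8]) tab8_ok f k hk hirr
      hloc (by omega) (by omega)
  · exact main_of_table 11 5 (by norm_num) (mkTab tab11) (by simp [mkTab, tab11]) tab11_ok f k hk
      hirr hloc (by omega) (by omega)
  · exact main_of_table 14 6 (by norm_num) (mkTab tab14) (by simp [mkTab, tab14]) tab14_ok f k hk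
      hirr hloc (by omega) (by omega)
  · exact main_of_table 15 6 (by norm_num) (mkTab tab15) (by simp [mkTab, tab15]) tab15_ok f k hk
      hirr hloc (by omega) (by omega)
  · exact main_of_table 36 12 (by norm_num) (mkTab tab36) (by simp [mkTab, tab36]) tab36_ok f k hk
      hirr hloc (by omega) (by omega)

end Vale.Agent.P018.K2
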