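import Mathlib

/-! # P018, K2 (staircase), module A: a Fejer/Chebyshev type kernel polynomial.

`κ = (D_m(x) / (2m+1))^2`, `D_m(x) = 1 + 2 ∑_{j=1}^m T_j(1-2x²)`, `T_j` the Chebyshev polynomials;
with `x = sin ψ` one has `x D_m(x) = sin ((2m+1)ψ)`. -/

namespace Vale.Agent.P018.K2

open Polynomial

/-- `D_m(x) = 1 + 2 ∑_{j=1}^m T_j(1-2x²)`, i.e. `sin((2m+1)ψ)/sin ψ` at `x = sin ψ`. -/
noncomputable def dirK (m : ℕ) : ℚ[X] :=
  1 + 2 * ∑ j ∈ Finset.range m, (Chebyshev.T ℚ ((j + 1 : ℕ) : ℤ)).comp (1 - 2 * X ^ 2)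

lemma dirK_natDegree (m : ℕ) : (dirK m).natDegree ≤ 2 * m := by
  unfold dirK
  refine (natDegree_add_le _ _).trans (max_le (by simp) ?_)
  refine natDegree_mul_le.trans ?_
  have h2 : (2 : ℚ[X]).natDegree = 0 := natDegree_ofNat 2
  rw [h2, zero_add]
  refine natDegree_sum_le_of_forall_le _ _ fun j hj => ?_
  refine natDegree_comp_le.trans ?_
  rw [Chebyshev.natDegree_T]
  have h3 : (1 - 2 * X ^ 2 : ℚ[X]).natDegree ≤ 2 := by
    compute_degree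
  have h4 : ((j + 1 : ℕ) : ℤ).natAbs ≤ m := by
    have := Finset.mem_range.1 hj
    omega
  nlinarith

lemma dirK_cast (m : ℕ) (x : ℚ) : (((dirK m).eval x : ℚ) : ℝ) =
    1 + 2 * ∑ j ∈ Finset.range m,
      (Chebyshev.T ℝ ((j + 1 : ℕ) : ℤ)).eval (1 - 2 * (x : ℝ) ^ 2) := by
  have h : ∀ (n : ℤ) (y : ℚ), (((Chebyshev.T ℚ n).eval y : ℚ) : ℝ) =
      (Chebyshev.T ℝ n).eval (y : ℝ) := fun n y => by
    simpa using Chebyshev.algebraMap_eval_T (R := ℚ) (R' := ℝ) y n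
  unfold dirK
  simp only [eval_add, eval_one, eval_mul, eval_ofNat, eval_finsetSum, eval_comp, eval_sub,
    eval_pow, eval_X, Rat.cast_add, Rat.cast_one, Rat.cast_mul, Rat.cast_ofNat, Rat.cast_sum, h,
    Rat.cast_sub, Rat.cast_pow]

lemma dirK_zero (m : ℕ) : (dirK m).eval 0 = 2 * m + 1 := by
  unfold dirK
  simp [eval_finsetSum, eval_comp]
  ring

lemma dirK_sin (m : ℕ) (ψ : ℝ) : Real.sin ψ * (1 + 2 * ∑ j ∈ Finset.range m,
    (Chebyshev.T ℝ ((j + 1 : ℕ) : ℤ)).eval (1 - 2 * (Real.sin ψ) ^ 2)) =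
      Real.sin ((2 * m + 1) * ψ) := by
  have hc : 1 - 2 * (Real.sin ψ) ^ 2 = Real.cos (2 * ψ) := by
    rw [Real.cos_two_mul, Real.cos_sq']
    ring
  rw [hc]
  simp only [Chebyshev.T_real_cos]
  induction m with
  | zero => simp
  | succ m ih =>
    rw [Finset.sum_range_succ]
    have h1 : Real.sin ψ * (1 + 2 * (∑ j ∈ Finset.range m,
        Real.cos (((j + 1 : ℕ) : ℤ) * (2 * ψ)) + Real.cos (((m + 1 : ℕ) : ℤ) * (2 * ψ)))) =
        Real.sin ψ * (1 + 2 * ∑ j ∈ Finset.range m, Real.cos (((j + 1 : ℕ) : ℤ) * (2 * ψ))) +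
          2 * Real.sin ψ * Real.cos (((m + 1 : ℕ) : ℤ) * (2 * ψ)) := by ring
    rw [h1, ih]
    have h2 : ((2 * m + 1) * ψ : ℝ) = (((m + 1 : ℕ) : ℤ) * (2 * ψ)) - ψ := by
      push_cast
      ring
    have h3 : ((2 * ((m + 1 : ℕ) : ℝ) + 1) * ψ : ℝ) = (((m + 1 : ℕ) : ℤ) * (2 * ψ)) + ψ := by
      push_cast
      ring
    rw [h2, h3, Real.sin_sub, Real.sin_add]
    ring

lemma dirK_bounds (m : ℕ) (x : ℚ) (hx : |x| ≤ 1) :
    ((dirK m).eval x) ^ 2 ≤ (2 * m + 1) ^ 2 ∧ (x * (dirK m).eval x) ^ 2 ≤ 1 := by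
  have hx' : |(x : ℝ)| ≤ 1 := by exact_mod_cast hx
  have hxa := abs_le.1 hx'
  constructor
  · have h1 : |(((dirK m).eval x : ℚ) : ℝ)| ≤ 2 * m + 1 := by
      rw [dirK_cast]
      refine (abs_add_le _ _).trans ?_
      rw [abs_one, abs_mul, abs_two]
      have h2 : |∑ j ∈ Finset.range m,
          (Chebyshev.T ℝ ((j + 1 : ℕ) : ℤ)).eval (1 - 2 * (x : ℝ) ^ 2)| ≤ m := by
        refine (Finset.abs_sum_le_sum_abs _ _).trans ?_
        refine (Finset.sum_le_card_nsmul _ _ 1 fun j _ => ?_).trans (by simp)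
        refine Chebyshev.abs_eval_T_real_le_one _ ?_
        rw [abs_le]
        constructor <;> nlinarith [sq_nonneg (x : ℝ)]
      linarith
    have h3 : ((((dirK m).eval x : ℚ) : ℝ)) ^ 2 ≤ (2 * m + 1) ^ 2 := by
      rw [← sq_abs]
      exact pow_le_pow_left₀ (abs_nonneg _) h1 2
    exact_mod_cast h3
  · have h1 : Real.sin (Real.arcsin x) = x := Real.sin_arcsin hxa.1 hxa.2
    have h2 := dirK_sin m (Real.arcsin x)
    rw [h1, ← dirK_cast] at h2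
    have h3 : ((x : ℝ) * (((dirK m).eval x : ℚ) : ℝ)) ^ 2 ≤ 1 := by
      rw [h2]
      exact Real.sin_sq_le_one _
    exact_mod_cast h3

theorem exists_kernel_poly (δ : ℚ) (hδ : 0 < δ) : ∃ A : ℕ, ∀ N : ℕ, 1 ≤ N →
    ∃ κ : ℚ[X], κ.natDegree ≤ A * N ∧ κ.eval 0 = 1 ∧
      ∀ x : ℚ, |x| ≤ 1 → 0 ≤ κ.eval x ∧ κ.eval x ≤ 1 ∧ κ.eval x * ((N : ℚ) * x) ^ 2 ≤ δ := by
  obtain ⟨c, hc⟩ := exists_nat_ge (max 1 (1 / δ))
  have hc1 : (1 : ℚ) ≤ c := (le_max_left _ _).trans hc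
  have hc2 : 1 / δ ≤ c := (le_max_right _ _).trans hc
  rw [div_le_iff₀ hδ] at hc2
  refine ⟨4 * c, fun N hN => ?_⟩
  set m := N * c with hm
  have hM : (0 : ℚ) < 2 * m + 1 := by positivity
  refine ⟨C (1 / (2 * m + 1 : ℚ) ^ 2) * dirK m ^ 2, ?_, ?_, ?_⟩
  · refine (natDegree_C_mul_le _ _).trans ?_
    refine natDegree_pow_le.trans ?_
    have := dirK_natDegree m
    calc 2 * (dirK m).natDegree ≤ 2 * (2 * m) := by omega
      _ = 4 * c * N := by rw [hm]; ring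
  · rw [eval_mul, eval_C, eval_pow, dirK_zero]
    field_simp
  · intro x hx
    obtain ⟨h1, h2⟩ := dirK_bounds m x hx
    rw [eval_mul, eval_C, eval_pow]
    refine ⟨by positivity, ?_, ?_⟩
    · rw [one_div_mul_eq_div, div_le_one (by positivity)]
      exact h1
    · have h3 : 1 / (2 * m + 1 : ℚ) ^ 2 * (dirK m).eval x ^ 2 * (N * x) ^ 2 =
          (N : ℚ) ^ 2 * (x * (dirK m).eval x) ^ 2 / (2 * m + 1) ^ 2 := by ring
      rw [h3, div_le_iff₀ (by positivity)]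
      have h4 : (m : ℚ) = N * c := by rw [hm]; push_cast; ring
      have h5 : (1 : ℚ) ≤ c * (c * δ) := by nlinarith
      calc (N : ℚ) ^ 2 * (x * (dirK m).eval x) ^ 2 ≤ N ^ 2 * 1 :=
            mul_le_mul_of_nonneg_left h2 (by positivity)
        _ ≤ N ^ 2 * (c * (c * δ)) := mul_le_mul_of_nonneg_left h5 (by positivity)
        _ ≤ δ * (2 * m + 1) ^ 2 := by
          rw [h4]
          have h6 : (0 : ℚ) ≤ N * c := by positivity
          nlinarith [mul_nonneg hδ.le h6, mul_nonneg hδ.le (mul_nonneg h6 h6)]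

end Vale.Agent.P018.K2
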