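import Vale.Agent.P018.K.Count
import Vale.Agent.P018.K2.Kernel

/-! # P018, K2 (staircase), module B: points in distinct (far apart) cells are interpolated by
polynomials of degree `≤ A N`.

The points `y q` lie in cells `y0 + h u_q + [0,h)^d`, `u_q ∈ [0,N)^d`, `u` injective and all
`u_q ≡ u_q' mod 2` (so the cells are not adjacent).  Matrix
`K(q,q') = ∏_j κ((y_{q,j} - y_{q',j}) / (h N))`, `κ` from `exists_kernel_poly (1/(8d))`
(or any small enough `δ`), diagonal entries `1`; if `v = u_{q'} - u_q = 2 v'`, `v_j ≠ 0`, then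
`|y_{q,j}-y_{q',j}| ≥ h(|v_j|-1) ≥ h |v_j|/2 = h |v'_j|`, hence `κ ≤ δ / v'_j^2`; if `v_j = 0` use
`κ ≤ 1`.  Row sums off the diagonal are
`≤ (1 + 2 δ ∑_{m≥1} 1/m^2)^d - 1 ≤ (1+4δ)^d - 1 < 1`.  So the matrix is strictly diagonally dominant
(`det_ne_zero_of_sum_row_lt_diag`), and its columns are polynomials in `y` of total degree
`≤ d A N`. Use `cnt_P_mul`, `cnt_P_prod`, ... and the `hcoord` step of `cnt_P_top` in
`Vale.Agent.P018.K.Count`. -/

namespace Vale.Agent.P018.K2

open Polynomial Vale.Agent.P018.K Finset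

section k2b

variable {d : ℕ} {L : Type} [Field L] {ι : Type}

private theorem k2b_coord [CharZero L] (y : ι → Fin d → ℤ) (θ : Fin d → L)
    (hθ : Function.Injective θ) (j : Fin d) :
    (fun q => (y q j : L)) ∈ cnt_P (fun i q => ell (θ i) (y q)) 1 := by
  have hdet : IsUnit (Matrix.vandermonde θ).det :=
    isUnit_iff_ne_zero.2 (Matrix.det_vandermonde_ne_zero_iff.2 hθ)
  have h1 : ∀ q, (Matrix.vandermonde θ).mulVec (fun j => (y q j : L)) =
      fun i => ell (θ i) (y q) := by
    intro q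
    funext i
    simp only [Matrix.mulVec, dotProduct, Matrix.vandermonde_apply, ell]
    exact Finset.sum_congr rfl fun j _ => mul_comm _ _
  have h2 : (fun q => (y q j : L)) =
      ∑ i, ((Matrix.vandermonde θ)⁻¹ j i) • (fun q => ell (θ i) (y q)) := by
    funext q
    have h3 : (fun j => (y q j : L)) =
        (Matrix.vandermonde θ)⁻¹.mulVec (fun i => ell (θ i) (y q)) := by
      rw [← h1 q, Matrix.mulVec_mulVec, Matrix.nonsing_inv_mul _ hdet, Matrix.one_mulVec]
    have h4 := congrFun h3 j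
    simp only [Matrix.mulVec, dotProduct] at h4
    rw [h4, Finset.sum_apply]
    rfl
  rw [h2]
  exact Submodule.sum_mem _ fun i _ => Submodule.smul_mem _ _
    (cnt_P_var (fun i q => ell (θ i) (y q)) i)

private theorem k2b_pow {x : Fin d → ι → L} {v : ι → L} (hv : v ∈ cnt_P x 1) (i : ℕ) :
    (fun q => v q ^ i) ∈ cnt_P x i := by
  induction i with
  | zero =>
    have e : (fun q => v q ^ 0) = (1 : ι → L) := by
      funext q
      simp
    rw [e]
    exact cnt_P_one x
  | succ i ih =>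
    have e : (fun q => v q ^ (i + 1)) = (fun q => v q ^ i) * v := by
      funext q
      simp [pow_succ]
    rw [e]
    exact cnt_P_mul x ih hv

private theorem k2b_eval {x : Fin d → ι → L} {v : ι → L} (hv : v ∈ cnt_P x 1) {f : L[X]} {k : ℕ}
    (hf : f.natDegree ≤ k) : (fun q => f.eval (v q)) ∈ cnt_P x k := by
  have e : (fun q => f.eval (v q)) = ∑ i ∈ range (k + 1), f.coeff i • (fun q => v q ^ i) := by
    funext q
    rw [Finset.sum_apply, eval_eq_sum_range' (Nat.lt_succ_of_le hf)]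
    rfl
  rw [e]
  refine Submodule.sum_mem _ fun i hi => Submodule.smul_mem _ _ ?_
  exact cnt_P_mono x (Nat.le_of_lt_succ (Finset.mem_range.1 hi)) (k2b_pow hv i)

private theorem k2b_prod (x : Fin d → ι → L) {κ : Type} (T : Finset κ) (u : κ → ι → L) (k : ℕ)
    (h : ∀ s ∈ T, u s ∈ cnt_P x k) : ∏ s ∈ T, u s ∈ cnt_P x (T.card * k) := by
  classical
  induction T using Finset.induction_on with
  | empty =>
    rw [Finset.prod_empty, Finset.card_empty, zero_mul]
    exact cnt_P_one x
  | insert s T hs ih =>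
    rw [Finset.prod_insert hs, Finset.card_insert_of_notMem hs, add_mul, one_mul, add_comm]
    exact cnt_P_mul x (h s (Finset.mem_insert_self s T))
      (ih fun t ht => h t (Finset.mem_insert_of_mem ht))

/-- the weight of a difference -/
private def k2b_w (δ : ℚ) (m : ℤ) : ℚ := if m = 0 then 1 else δ / (m : ℚ) ^ 2

private theorem k2b_w_nonneg {δ : ℚ} (hδ : 0 ≤ δ) (m : ℤ) : 0 ≤ k2b_w δ m := by
  unfold k2b_w
  split_ifs
  · exact zero_le_one
  · positivity

private theorem k2b_w_sum {δ : ℚ} (hδ : 0 ≤ δ) (N : ℕ) :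
    ∑ m ∈ Finset.Icc (-((N : ℤ) + 1)) ((N : ℤ) + 1), k2b_w δ m ≤ 1 + 2 * δ * (2 - 1 / (N + 1)) := by
  induction N with
  | zero =>
    have e : Finset.Icc (-(((0 : ℕ) : ℤ) + 1)) (((0 : ℕ) : ℤ) + 1) = {-1, 0, 1} := by decide
    rw [e, Finset.sum_insert (by decide), Finset.sum_insert (by decide), Finset.sum_singleton]
    simp only [k2b_w]
    norm_num
    linarith
  | succ N ih =>
    have e : Finset.Icc (-(((N + 1 : ℕ) : ℤ) + 1)) (((N + 1 : ℕ) : ℤ) + 1) =
        insert ((N : ℤ) + 2) (insert (-((N : ℤ) + 2))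
          (Finset.Icc (-((N : ℤ) + 1)) ((N : ℤ) + 1))) := by
      ext m
      simp only [Finset.mem_Icc, Finset.mem_insert]
      push_cast
      omega
    rw [e, Finset.sum_insert, Finset.sum_insert]
    · have h1 : k2b_w δ ((N : ℤ) + 2) = δ / ((N : ℚ) + 2) ^ 2 := by
        unfold k2b_w
        rw [if_neg (by omega)]
        push_cast
        rfl
      have h2 : k2b_w δ (-((N : ℤ) + 2)) = δ / ((N : ℚ) + 2) ^ 2 := by
        unfold k2b_w
        rw [if_neg (by omega)]
        push_cast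
        rw [neg_sq]
      rw [h1, h2]
      have hN : (0 : ℚ) ≤ N := Nat.cast_nonneg N
      have h3 : (1 : ℚ) / ((N : ℚ) + 2) ^ 2 ≤ 1 / (N + 1) - 1 / (N + 2) := by
        rw [div_sub_div _ _ (by positivity) (by positivity), div_le_div_iff₀ (by positivity)
          (by positivity)]
        nlinarith
      have h4 : δ / ((N : ℚ) + 2) ^ 2 ≤ δ * (1 / (N + 1) - 1 / (N + 2)) := by
        rw [div_eq_mul_one_div]
        exact mul_le_mul_of_nonneg_left h3 hδ
      have h5 : (((N + 1 : ℕ) : ℚ) + 1) = (N : ℚ) + 2 := by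
        push_cast
        ring
      rw [h5]
      nlinarith [ih, h4]
    · simp only [Finset.mem_Icc]
      omega
    · simp only [Finset.mem_insert, Finset.mem_Icc]
      omega

private theorem k2b_pow_lt (d : ℕ) : (1 + 4 * (1 / (8 * ((d : ℚ) + 1)))) ^ d < 2 := by
  have hd : (0 : ℚ) ≤ d := Nat.cast_nonneg d
  obtain ⟨x, hx⟩ : ∃ x : ℚ, x = 4 * (1 / (8 * ((d : ℚ) + 1))) := ⟨_, rfl⟩
  rw [← hx]
  have hx1 : x * (2 * ((d : ℚ) + 1)) = 1 := by
    rw [hx]
    field_simp
    ring
  have hx0 : 0 < x := by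
    rw [hx]
    positivity
  have h1 : 1 + (d : ℚ) * (-x) ≤ (1 + (-x)) ^ d := by
    refine one_add_mul_le_pow ?_ d
    nlinarith
  have h2 : (1 + x) ^ d * (1 + (-x)) ^ d ≤ 1 := by
    rw [← mul_pow]
    refine pow_le_one₀ ?_ ?_
    · nlinarith
    · nlinarith
  have h3 : (1 : ℚ) / 2 < (1 + (-x)) ^ d := by
    refine lt_of_lt_of_le ?_ h1
    nlinarith
  have h4 : 0 < (1 + x) ^ d := by positivity
  nlinarith

end k2b

theorem cells_top (d : ℕ) : ∃ A : ℕ, ∀ (L : Type) [Field L] [CharZero L] (θ : Fin d → L),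
    Function.Injective θ → ∀ (ι : Type) [Fintype ι] (y u : ι → Fin d → ℤ) (y0 : Fin d → ℤ)
    (h N : ℕ), 1 ≤ h → 1 ≤ N → Function.Injective u →
    (∀ q j, 0 ≤ u q j ∧ u q j < N) → (∀ q q' j, (2 : ℤ) ∣ u q j - u q' j) →
    (∀ q j, y0 j + h * u q j ≤ y q j ∧ y q j < y0 j + h * (u q j + 1)) →
    cnt_P (fun i q => ell (θ i) (y q)) (A * N) = ⊤ := by
  classical
  obtain ⟨δ, hδdef⟩ : ∃ δ : ℚ, δ = 1 / (8 * ((d : ℚ) + 1)) := ⟨_, rfl⟩
  have hδ : 0 < δ := by
    rw [hδdef]
    positivity
  obtain ⟨A0, hA0⟩ := exists_kernel_poly δ hδ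
  refine ⟨d * A0, ?_⟩
  intro L _ _ θ hθ ι _ y u y0 h N hh hN hu hu1 hu2 hy
  obtain ⟨κ, hκd, hκ0, hκ⟩ := hA0 N hN
  have hhQ : (0 : ℚ) < h := by exact_mod_cast hh
  have hNQ : (0 : ℚ) < N := by exact_mod_cast hN
  -- the arguments of the kernel
  let Xa : ι → ι → Fin d → ℚ := fun q' q j => ((y q j : ℚ) - y q' j) / (h * N)
  have hX : ∀ q' q j, |Xa q' q j| ≤ 1 := by
    intro q' q j
    have h1 := hy q j
    have h2 := hy q' j
    have h3 := hu1 q j
    have h4 := hu1 q' j
    have hhZ : (0 : ℤ) < h := by exact_mod_cast hh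
    have h5 : |y q j - y q' j| ≤ (h : ℤ) * N := by
      rw [abs_le]
      have e1 : (h : ℤ) * (u q j + 1) ≤ h * N := mul_le_mul_of_nonneg_left (by omega) hhZ.le
      have e2 : (h : ℤ) * (u q' j + 1) ≤ h * N := mul_le_mul_of_nonneg_left (by omega) hhZ.le
      have e3 : 0 ≤ (h : ℤ) * u q j := mul_nonneg hhZ.le h3.1
      have e4 : 0 ≤ (h : ℤ) * u q' j := mul_nonneg hhZ.le h4.1
      constructor <;> linarith
    have h6 : |(y q j : ℚ) - y q' j| ≤ h * N := by exact_mod_cast h5
    show |((y q j : ℚ) - y q' j) / (h * N)| ≤ 1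
    rw [abs_div, abs_of_pos (mul_pos hhQ hNQ), div_le_one (mul_pos hhQ hNQ)]
    exact h6
  -- the matrix
  let M : Matrix ι ι ℚ := fun q' q => ∏ j, κ.eval (Xa q' q j)
  have hM0 : ∀ q' q, 0 ≤ M q' q := fun q' q => Finset.prod_nonneg fun j _ => (hκ _ (hX q' q j)).1
  have hMd : ∀ q, M q q = 1 := by
    intro q
    refine Finset.prod_eq_one fun j _ => ?_
    have e : Xa q q j = 0 := by simp [Xa]
    rw [e, hκ0]
  -- kernel bounds
  have hw : ∀ q' q j, κ.eval (Xa q' q j) ≤ k2b_w δ ((u q j - u q' j) / 2) := by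
    intro q' q j
    obtain ⟨v, hv⟩ := hu2 q q' j
    have hv2 : (u q j - u q' j) / 2 = v := by omega
    rw [hv2]
    unfold k2b_w
    split_ifs with h0
    · exact (hκ _ (hX q' q j)).2.1
    · have h1 := hy q j
      have h2 := hy q' j
      have hhZ : (0 : ℤ) < h := by exact_mod_cast hh
      have hsq : ((h : ℤ) * v) ^ 2 ≤ (y q j - y q' j) ^ 2 := by
        have hu3 : u q j = u q' j + 2 * v := by linarith
        rw [hu3] at h1
        rcases lt_or_gt_of_ne h0 with hv0 | hv0
        · have e1 : y q j - y q' j ≤ h * v := by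
            have : (h : ℤ) * (2 * v + 1) ≤ h * v := mul_le_mul_of_nonneg_left (by omega) hhZ.le
            nlinarith
          have e2 : (h : ℤ) * v ≤ 0 := mul_nonpos_of_nonneg_of_nonpos hhZ.le hv0.le
          nlinarith
        · have e1 : (h : ℤ) * v ≤ y q j - y q' j := by
            have : (h : ℤ) * v ≤ h * (2 * v - 1) := mul_le_mul_of_nonneg_left (by omega) hhZ.le
            nlinarith
          have e2 : 0 ≤ (h : ℤ) * v := mul_nonneg hhZ.le hv0.le
          nlinarith
      have hsqQ : ((h : ℚ) * v) ^ 2 ≤ ((y q j : ℚ) - y q' j) ^ 2 := by exact_mod_cast hsq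
      have h3 := hκ _ (hX q' q j)
      have h4 : ((N : ℚ) * Xa q' q j) ^ 2 = ((y q j : ℚ) - y q' j) ^ 2 / (h : ℚ) ^ 2 := by
        show ((N : ℚ) * (((y q j : ℚ) - y q' j) / (h * N))) ^ 2 = _
        field_simp
      have h5 : (v : ℚ) ^ 2 ≤ ((N : ℚ) * Xa q' q j) ^ 2 := by
        rw [h4, le_div_iff₀ (by positivity)]
        calc (v : ℚ) ^ 2 * (h : ℚ) ^ 2 = ((h : ℚ) * v) ^ 2 := by ring
          _ ≤ _ := hsqQ
      have hvQ : (0 : ℚ) < (v : ℚ) ^ 2 := by
        have : (v : ℚ) ≠ 0 := by exact_mod_cast h0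
        positivity
      rw [le_div_iff₀ hvQ]
      exact (mul_le_mul_of_nonneg_left h5 h3.1).trans h3.2.2
  -- row sums
  have hrow : ∀ q', ∑ q ∈ univ.erase q', M q' q < 1 := by
    intro q'
    let f : ι → Fin d → ℤ := fun q j => (u q j - u q' j) / 2
    have hfinj : Function.Injective f := by
      intro q1 q2 h12
      apply hu
      funext j
      have e := congrFun h12 j
      have e1 := hu2 q1 q' j
      have e2 := hu2 q2 q' j
      simp only [f] at e
      omega
    have hf0 : ∀ q ∈ (univ.erase q'), f q ≠ 0 := by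
      intro q hq h0
      have e : f q = f q' := by
        rw [h0]
        funext j
        simp [f]
      exact (Finset.ne_of_mem_erase hq) (hfinj e)
    let B : Finset (Fin d → ℤ) := Fintype.piFinset fun _ => Finset.Icc (-(N : ℤ)) N
    have hfB : ∀ q, f q ∈ B := by
      intro q
      rw [Fintype.mem_piFinset]
      intro j
      have e1 := hu1 q j
      have e2 := hu1 q' j
      simp only [f, Finset.mem_Icc]
      omega
    have h0B : (0 : Fin d → ℤ) ∈ B := by
      rw [Fintype.mem_piFinset]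
      intro j
      simp only [Pi.zero_apply, Finset.mem_Icc]
      omega
    calc ∑ q ∈ univ.erase q', M q' q
        ≤ ∑ q ∈ univ.erase q', ∏ j, k2b_w δ (f q j) :=
          Finset.sum_le_sum fun q _ => Finset.prod_le_prod
            (fun j _ => (hκ _ (hX q' q j)).1) (fun j _ => hw q' q j)
      _ = ∑ v ∈ (univ.erase q').image f, ∏ j, k2b_w δ (v j) :=
          (Finset.sum_image (f := fun v : Fin d → ℤ => ∏ j, k2b_w δ (v j))
            fun a _ b _ hab => hfinj hab).symm
      _ ≤ ∑ v ∈ B.erase 0, ∏ j, k2b_w δ (v j) := by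
          refine Finset.sum_le_sum_of_subset_of_nonneg ?_ fun v _ _ =>
            Finset.prod_nonneg fun j _ => k2b_w_nonneg hδ.le _
          intro v hv
          obtain ⟨q, hq, rfl⟩ := Finset.mem_image.1 hv
          exact Finset.mem_erase.2 ⟨hf0 q hq, hfB q⟩
      _ = (∑ m ∈ Finset.Icc (-(N : ℤ)) N, k2b_w δ m) ^ d - 1 := by
          have e1 : ∑ v ∈ B, ∏ j, k2b_w δ (v j) =
              (∑ m ∈ Finset.Icc (-(N : ℤ)) N, k2b_w δ m) ^ d := by
            rw [← Finset.prod_univ_sum (fun _ : Fin d => Finset.Icc (-(N : ℤ)) N)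
              (fun _ m => k2b_w δ m), Finset.prod_const, Finset.card_univ, Fintype.card_fin]
          have e2 : ∏ j, k2b_w δ ((0 : Fin d → ℤ) j) + ∑ v ∈ B.erase 0, ∏ j, k2b_w δ (v j) =
              ∑ v ∈ B, ∏ j, k2b_w δ (v j) :=
            Finset.add_sum_erase B (fun v : Fin d → ℤ => ∏ j, k2b_w δ (v j)) h0B
          have e3 : ∏ j : Fin d, k2b_w δ ((0 : Fin d → ℤ) j) = 1 := by
            simp [k2b_w]
          rw [e3, e1] at e2
          linarith
      _ < 1 := by
          obtain ⟨n, rfl⟩ : ∃ n, N = n + 1 := ⟨N - 1, by omega⟩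
          have e1 := k2b_w_sum hδ.le n
          have e2 : ((n : ℚ) + 1) > 0 := by positivity
          have e3 : (0 : ℚ) < 1 / ((n : ℚ) + 1) := by positivity
          have e4 : ∑ m ∈ Finset.Icc (-(((n + 1 : ℕ) : ℤ))) ((n + 1 : ℕ) : ℤ), k2b_w δ m ≤
              1 + 4 * (1 / (8 * ((d : ℚ) + 1))) := by
            rw [← hδdef]
            push_cast
            refine e1.trans ?_
            nlinarith
          have e5 := pow_le_pow_left₀ (Finset.sum_nonneg fun m _ => k2b_w_nonneg hδ.le m) e4 d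
          have e6 := k2b_pow_lt d
          linarith
  have hdet : M.det ≠ 0 := by
    have h1 : (M.map (Rat.castHom ℝ)).det ≠ 0 := by
      refine det_ne_zero_of_sum_row_lt_diag fun q' => ?_
      simp only [Matrix.map_apply, Rat.coe_castHom, Real.norm_eq_abs]
      rw [hMd q']
      have e : ∑ q ∈ univ.erase q', |((M q' q : ℚ) : ℝ)| =
          ((∑ q ∈ univ.erase q', M q' q : ℚ) : ℝ) := by
        push_cast
        refine Finset.sum_congr rfl fun q _ => abs_of_nonneg ?_
        exact_mod_cast hM0 q' q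
      rw [e]
      have := hrow q'
      simp only [Rat.cast_one, abs_one]
      exact_mod_cast this
    intro h0
    apply h1
    have h2 := RingHom.map_det (Rat.castHom ℝ) M
    rw [h0, map_zero] at h2
    exact h2.symm
  -- over `L`
  let ML : Matrix ι ι L := (Rat.castHom L).mapMatrix M
  have hdetL : IsUnit ML.det := by
    rw [isUnit_iff_ne_zero]
    have h2 := RingHom.map_det (Rat.castHom L) M
    show ((Rat.castHom L).mapMatrix M).det ≠ 0
    rw [← h2]
    exact (map_ne_zero (Rat.castHom L)).2 hdet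
  have hrows : ∀ q', (fun q => ML q' q) ∈ cnt_P (fun i q => ell (θ i) (y q)) (d * A0 * N) := by
    intro q'
    have hlin : ∀ j, (fun q => ((Xa q' q j : ℚ) : L)) ∈
        cnt_P (fun i q => ell (θ i) (y q)) 1 := by
      intro j
      have e : (fun q => ((Xa q' q j : ℚ) : L)) =
          (((h : L) * N)⁻¹) • ((fun q => (y q j : L)) - (y q' j : L) • (1 : ι → L)) := by
        funext q
        simp only [Xa, Pi.smul_apply, Pi.sub_apply, Pi.one_apply, smul_eq_mul, mul_one]
        push_cast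
        rw [div_eq_inv_mul]
      rw [e]
      exact Submodule.smul_mem _ _ (Submodule.sub_mem _ (k2b_coord y θ hθ j)
        (Submodule.smul_mem _ _ (cnt_P_mono _ (Nat.zero_le 1) (cnt_P_one _))))
    have hf : (κ.map (Rat.castHom L)).natDegree ≤ A0 * N := (natDegree_map_le).trans hκd
    have h1 := k2b_prod (fun i q => ell (θ i) (y q)) (univ : Finset (Fin d))
      (fun j q => (κ.map (Rat.castHom L)).eval ((Xa q' q j : ℚ) : L)) (A0 * N)
      (fun j _ => k2b_eval (hlin j) hf)
    have e : (fun q => ML q' q) = ∏ j : Fin d,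
        (fun q => (κ.map (Rat.castHom L)).eval ((Xa q' q j : ℚ) : L)) := by
      funext q
      rw [Finset.prod_apply]
      show (Rat.castHom L) (∏ j, κ.eval (Xa q' q j)) = _
      rw [map_prod]
      refine Finset.prod_congr rfl fun j _ => ?_
      rw [eval_map]
      exact (eval₂_at_apply (Rat.castHom L) (Xa q' q j)).symm
    rw [e, mul_assoc]
    rw [Finset.card_univ, Fintype.card_fin] at h1
    exact h1
  rw [eq_top_iff]
  intro v _
  have e : v = ∑ q', (Matrix.vecMul v ML⁻¹) q' • (fun q => ML q' q) := by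
    funext q
    have h1 : Matrix.vecMul (Matrix.vecMul v ML⁻¹) ML = v := by
      rw [Matrix.vecMul_vecMul, Matrix.nonsing_inv_mul _ hdetL, Matrix.vecMul_one]
    have h2 := congrFun h1 q
    rw [← h2, Finset.sum_apply]
    rfl
  rw [e]
  exact Submodule.sum_mem _ fun q' _ => Submodule.smul_mem _ _ (hrows q')

end Vale.Agent.P018.K2
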