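import Vale.Agent.P018.K2.Cells

/-! # P018, K2 (staircase), module E: recursion over the scales.

Scales: `H_m = ∏_{i ≤ m} N i`, `H_0 = 1`.  If in every cube of side `H_r` all `r`-tuples satisfy a
relation (for every `1 ≤ r ≤ d-1` with `N r ≠ 1`), then a cube of side `H_{d-1}` contains at most
`C ∏ (N r)^r` points.  Induction on `m ≤ d-1`: a cube of side `H_m` contains at most
`C_m ∏_{r ≤ m} (N r)^r` points: the number of sub-cells of side `h = H_{m-1}` is `≤ C (N m)^m` by
`count_cells` (trivial if `N m = 1`), each of them contains at most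
`C_{m-1} ∏_{r ≤ m-1} (N r)^r` points; a cube of side `1` contains at most one point. -/

namespace Vale.Agent.P018.K2

open Polynomial Vale.Agent.P018.K

theorem multi_count (d D C1 : ℕ) : ∃ C : ℕ, ∀ (L : Type) [Field L] [CharZero L]
    (θ : Fin d → L), Function.Injective θ → ∀ (N : ℕ → ℕ), (∀ r, 1 ≤ N r) →
    ∀ (Q : Finset (ℤ × (Fin d → ℤ))),
    (∀ q ∈ Q, ∀ q' ∈ Q, q.2 = q'.2 → q = q') →
    (∀ n : ℤ, (Q.filter (fun q => q.1 = n)).card ≤ C1) →
    (∀ r, 1 ≤ r → r + 1 ≤ d → N r ≠ 1 → ∀ (y1 : Fin d → ℤ),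
      ∀ I : Fin r → Fin d, Function.Injective I → ∃ F : MvPolynomial (Fin r) L[X], F ≠ 0 ∧
        (∀ a ∈ F.support, a.degree ≤ D ∧ (F.coeff a).natDegree ≤ D) ∧
        ∀ q ∈ Q, (∀ j, y1 j ≤ q.2 j ∧ q.2 j < y1 j + ((∏ i ∈ Finset.Icc 1 r, N i : ℕ) : ℤ)) →
          MvPolynomial.eval₂ (Polynomial.evalRingHom (q.1 : L))
            (fun i => ell (θ (I i)) q.2) F = 0) →
    ∀ y0 : Fin d → ℤ, (Q.filter (fun q => ∀ j, y0 j ≤ q.2 j ∧
      q.2 j < y0 j + ((∏ i ∈ Finset.Icc 1 (d - 1), N i : ℕ) : ℤ))).card ≤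
        C * ∏ r ∈ Finset.Icc 1 (d - 1), N r ^ r := by
  classical
  have key : ∀ r : ℕ, ∃ c : ℕ, 1 ≤ c ∧ (1 ≤ r → r ≤ d → ∀ (L : Type) [Field L] [CharZero L]
      (θ : Fin d → L), Function.Injective θ →
      ∀ (h N : ℕ), 1 ≤ h → 1 ≤ N → ∀ (y0 : Fin d → ℤ) (S : Finset (ℤ × (Fin d → ℤ))),
      (∀ q ∈ S, ∀ j, y0 j ≤ q.2 j ∧ q.2 j < y0 j + h * N) →
      (∀ n : ℤ, (S.filter (fun q => q.1 = n)).card ≤ C1) →
      (∀ I : Fin r → Fin d, Function.Injective I → ∃ F : MvPolynomial (Fin r) L[X], F ≠ 0 ∧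
        (∀ a ∈ F.support, a.degree ≤ D ∧ (F.coeff a).natDegree ≤ D) ∧
        ∀ q ∈ S, MvPolynomial.eval₂ (Polynomial.evalRingHom (q.1 : L))
          (fun i => ell (θ (I i)) q.2) F = 0) →
      (S.image (fun q => fun j => (q.2 j - y0 j) / (h : ℤ))).card ≤ c * N ^ r) := by
    intro r
    by_cases hr : 1 ≤ r ∧ r ≤ d
    · obtain ⟨C, hC⟩ := count_cells d r D C1 hr.1 hr.2
      refine ⟨max 1 C, le_max_left _ _, fun _ _ L _ _ θ hθ h N hh hN y0 S h1 h2 h3 => ?_⟩
      exact (hC L θ hθ h N hh hN y0 S h1 h2 h3).trans (Nat.mul_le_mul_right _ (le_max_right _ _))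
    · exact ⟨1, le_rfl, fun h1 h2 => absurd ⟨h1, h2⟩ hr⟩
  choose Cf hCf1 hCf using key
  refine ⟨∏ r ∈ Finset.Icc 1 (d - 1), Cf r, ?_⟩
  intro L _ _ θ hθ N hN Q hinj hn hrel
  have hHpos : ∀ m, 1 ≤ ∏ i ∈ Finset.Icc 1 m, N i := fun m =>
    Nat.succ_le_of_lt (Finset.prod_pos fun i _ => hN i)
  have main : ∀ m, m ≤ d - 1 → ∀ y0 : Fin d → ℤ, (Q.filter (fun q => ∀ j, y0 j ≤ q.2 j ∧
      q.2 j < y0 j + ((∏ i ∈ Finset.Icc 1 m, N i : ℕ) : ℤ))).card ≤
        (∏ r ∈ Finset.Icc 1 m, Cf r) * ∏ r ∈ Finset.Icc 1 m, N r ^ r := by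
    intro m
    induction m with
    | zero =>
      intro _ y0
      have e : Finset.Icc 1 0 = (∅ : Finset ℕ) := rfl
      rw [e, Finset.prod_empty, Finset.prod_empty, Finset.prod_empty, mul_one,
        Finset.card_le_one]
      intro q hq q' hq'
      rw [Finset.mem_filter] at hq hq'
      refine hinj q hq.1 q' hq'.1 (funext fun j => ?_)
      have h1 := hq.2 j
      have h2 := hq'.2 j
      push_cast at h1 h2
      omega
    | succ m ih =>
      intro hm y0
      have hih := ih (by omega)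
      set h : ℕ := ∏ i ∈ Finset.Icc 1 m, N i with hh
      have hh1 : 1 ≤ h := hHpos m
      have e1 : ∏ i ∈ Finset.Icc 1 (m + 1), N i = h * N (m + 1) := by
        rw [Finset.prod_Icc_succ_top (by omega)]
      rw [Finset.prod_Icc_succ_top (by omega : 1 ≤ m + 1) (fun r => N r ^ r),
        Finset.prod_Icc_succ_top (by omega : 1 ≤ m + 1) Cf]
      set S := Q.filter (fun q => ∀ j, y0 j ≤ q.2 j ∧
        q.2 j < y0 j + ((∏ i ∈ Finset.Icc 1 (m + 1), N i : ℕ) : ℤ)) with hS
      have hSmem : ∀ q ∈ S, q ∈ Q ∧ ∀ j, y0 j ≤ q.2 j ∧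
          q.2 j < y0 j + (h : ℤ) * (N (m + 1) : ℤ) := by
        intro q hq
        rw [hS, Finset.mem_filter] at hq
        refine ⟨hq.1, fun j => ?_⟩
        have h2 := hq.2 j
        rw [e1, Nat.cast_mul] at h2
        exact h2
      have hhz : (0 : ℤ) < (h : ℤ) := by exact_mod_cast hh1
      -- the fibers
      have hfib : ∀ u ∈ S.image (fun q => fun j => (q.2 j - y0 j) / (h : ℤ)),
          (S.filter fun q => (fun j => (q.2 j - y0 j) / (h : ℤ)) = u).card ≤
            (∏ r ∈ Finset.Icc 1 m, Cf r) * ∏ r ∈ Finset.Icc 1 m, N r ^ r := by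
        intro u _
        refine le_trans (Finset.card_le_card ?_) (hih fun j => y0 j + h * u j)
        intro q hq
        rw [Finset.mem_filter] at hq
        refine Finset.mem_filter.2 ⟨(hSmem q hq.1).1, fun j => ?_⟩
        have h3 : (q.2 j - y0 j) / (h : ℤ) = u j := congrFun hq.2 j
        have h4 := Int.mul_ediv_add_emod (q.2 j - y0 j) h
        have h5 := Int.emod_nonneg (q.2 j - y0 j) hhz.ne'
        have h6 := Int.emod_lt_of_pos (q.2 j - y0 j) hhz
        rw [h3] at h4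
        constructor <;> linarith
      have hcard := Finset.card_le_mul_card_image S _ hfib
      -- the number of cells
      have himg : (S.image (fun q => fun j => (q.2 j - y0 j) / (h : ℤ))).card ≤
          Cf (m + 1) * N (m + 1) ^ (m + 1) := by
        by_cases hN1 : N (m + 1) = 1
        · have hsub : S.image (fun q => fun j => (q.2 j - y0 j) / (h : ℤ)) ⊆ {0} := by
            intro u hu
            obtain ⟨q, hq, rfl⟩ := Finset.mem_image.1 hu
            rw [Finset.mem_singleton]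
            funext j
            have h2 := (hSmem q hq).2 j
            rw [hN1, Nat.cast_one, mul_one] at h2
            exact Int.ediv_eq_zero_of_lt (by linarith) (by linarith)
          have h7 := Finset.card_le_card hsub
          rw [Finset.card_singleton] at h7
          rw [hN1, one_pow, mul_one]
          exact h7.trans (hCf1 _)
        · refine hCf (m + 1) (by omega) (by omega) L θ hθ h (N (m + 1)) hh1 (hN _) y0 S
            (fun q hq => (hSmem q hq).2) (fun n => ?_) fun I hI => ?_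
          · refine le_trans (Finset.card_le_card ?_) (hn n)
            intro q hq
            rw [Finset.mem_filter] at hq ⊢
            exact ⟨(hSmem q hq.1).1, hq.2⟩
          · obtain ⟨F, hF0, hFD, hF⟩ := hrel (m + 1) (by omega) (by omega) hN1 y0 I hI
            refine ⟨F, hF0, hFD, fun q hq => hF q (hSmem q hq).1 ?_⟩
            rw [hS, Finset.mem_filter] at hq
            exact hq.2
      refine hcard.trans ?_
      calc (∏ r ∈ Finset.Icc 1 m, Cf r) * (∏ r ∈ Finset.Icc 1 m, N r ^ r) *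
            (S.image (fun q => fun j => (q.2 j - y0 j) / (h : ℤ))).card ≤
          (∏ r ∈ Finset.Icc 1 m, Cf r) * (∏ r ∈ Finset.Icc 1 m, N r ^ r) *
            (Cf (m + 1) * N (m + 1) ^ (m + 1)) := Nat.mul_le_mul_left _ himg
        _ = _ := by ring
  exact main (d - 1) le_rfl

end Vale.Agent.P018.K2
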