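import Mathlib

/-! # P018, K2: `loc_params2`, the real-variable facts on the scales. -/

namespace Vale.Agent.P018.K2

open Finset

/-- telescoping product of powers -/
theorem lp2_prod (X : ℝ) (hX : 0 < X) (c : ℕ → ℝ) (m : ℕ) :
    ∏ i ∈ Icc 1 m, X ^ (c (i - 1) - c i) = X ^ (c 0 - c m) := by
  induction m with
  | zero => simp
  | succ m ih =>
    rw [Finset.prod_Icc_succ_top (by omega), ih, ← Real.rpow_add hX]
    congr 1
    simp

/-- summation by parts -/
theorem lp2_sum (c : ℕ → ℝ) (D : ℝ) (m : ℕ) :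
    ∑ r ∈ Icc 1 m, ((r : ℝ) - D) * (c (r - 1) - c r) =
      -D * c 0 + ∑ r ∈ range (m + 1), c r - ((m : ℝ) + 1 - D) * c m := by
  induction m with
  | zero => simp; ring
  | succ m ih =>
    rw [Finset.sum_Icc_succ_top (by omega), ih, Finset.sum_range_succ (n := m + 1)]
    simp only [Nat.add_sub_cancel]
    push_cast
    ring

/-- MODULE F. real-variable facts on the scales. With `ε' = ε0 / d`, `w = a / d`,
`b' r = min (b r) (w - ε')`, take `N r = ⌊X ^ (b' (r-1) - b' r)⌋₊`, `R = P ^ (1/d)`. -/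
theorem loc_params2 (d : ℕ) (hd : 3 ≤ d) (a : ℝ) (ha : 1 ≤ a) (b : ℕ → ℝ) (hb0 : b 0 = a / d)
    (hanti : ∀ r, b (r + 1) ≤ b r) (hpos : 0 < b (d - 1)) (hfin : ∑ r ∈ range d, b r < 1) :
    ∃ ε0 η : ℝ, 0 < ε0 ∧ 0 < η ∧ ∀ ε : ℝ, 0 < ε → ε ≤ ε0 → ∀ X P : ℝ, 1 ≤ X → X ≤ P →
      X ^ (a - ε) ≤ P → P ≤ X ^ (a + ε) → ∃ (R : ℝ) (N : ℕ → ℕ), R = P ^ (1 / d : ℝ) ∧ 1 ≤ R ∧
        R ^ d = P ∧ (∀ r, 1 ≤ N r) ∧
        (∀ r, 1 ≤ r → r + 1 ≤ d → N r ≠ 1 → b r < b (r - 1) ∧
          ((∏ i ∈ Icc 1 r, N i : ℕ) : ℝ) ≤ R * X ^ (-(b r))) ∧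
        ((∏ i ∈ Icc 1 (d - 1), N i : ℕ) : ℝ) ≤ R ∧
        ((∏ r ∈ Icc 1 (d - 1), N r ^ r : ℕ) : ℝ) *
          (R / ((∏ i ∈ Icc 1 (d - 1), N i : ℕ) : ℝ)) ^ d ≤ 2 ^ (d * d) * X ^ (1 - η) := by
  have hd0 : (0 : ℝ) < d := by
    have : 0 < d := by omega
    exact_mod_cast this
  have hd3 : (3 : ℝ) ≤ d := by exact_mod_cast hd
  set Sb : ℝ := ∑ r ∈ range d, b r with hSb
  refine ⟨min ((1 - Sb) / 4) (1 / 2), (1 - Sb) / 2, ?_, by linarith, ?_⟩
  · refine lt_min (by linarith) (by norm_num)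
  intro ε hε hε0 X P hX hXP hP1 hP2
  set ε0 : ℝ := min ((1 - Sb) / 4) (1 / 2) with hε0d
  have hε0a : ε0 ≤ (1 - Sb) / 4 := min_le_left _ _
  have hε0b : ε0 ≤ 1 / 2 := min_le_right _ _
  have hε0p : 0 < ε0 := lt_of_lt_of_le hε hε0
  have hX0 : (0 : ℝ) < X := by linarith
  have hP : (0 : ℝ) < P := by linarith
  have hP1' : (1 : ℝ) ≤ P := by linarith
  set w : ℝ := a / d with hw
  have hdw : (d : ℝ) * w = a := by rw [hw]; field_simp
  set ε' : ℝ := ε0 / d with hε'
  have hdε' : (d : ℝ) * ε' = ε0 := by rw [hε']; field_simp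
  have hwε : 0 ≤ w - ε' := by
    have : (d : ℝ) * (w - ε') = a - ε0 := by rw [mul_sub, hdw, hdε']
    have h2 : 0 ≤ (d : ℝ) * (w - ε') := by rw [this]; linarith
    exact le_of_mul_le_mul_left (by simpa using h2) hd0
  have hε'0 : 0 < ε' := div_pos hε0p hd0
  have hbanti : Antitone b := antitone_nat_of_succ_le hanti
  set c : ℕ → ℝ := fun r => min (b r) (w - ε') with hc
  have hc0 : c 0 = w - ε' := by
    simp only [hc]
    rw [hb0]
    exact min_eq_right (by linarith)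
  have hcanti : Antitone c := fun i j hij => min_le_min_right _ (hbanti hij)
  have hcpos : ∀ r, r + 1 ≤ d → 0 ≤ c r := by
    intro r hr
    refine le_min ?_ hwε
    exact le_trans hpos.le (hbanti (by omega))
  set n : ℕ → ℝ := fun r => X ^ (c (r - 1) - c r) with hn
  have hn1 : ∀ r, 1 ≤ n r := by
    intro r
    refine Real.one_le_rpow hX ?_
    have := hcanti (Nat.sub_le r 1)
    linarith
  set N : ℕ → ℕ := fun r => ⌊n r⌋₊ with hN
  have hN1 : ∀ r, 1 ≤ N r := fun r => Nat.le_floor (by simpa using hn1 r)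
  have hNn : ∀ r, (N r : ℝ) ≤ n r := fun r => Nat.floor_le (by linarith [hn1 r])
  have hnN : ∀ r, n r ≤ 2 * (N r : ℝ) := by
    intro r
    have h1 := Nat.lt_floor_add_one (n r)
    have h2 : (1 : ℝ) ≤ (N r : ℝ) := by exact_mod_cast hN1 r
    have h3 : n r < (N r : ℝ) + 1 := h1
    linarith
  have hprod : ∀ m, ((∏ i ∈ Icc 1 m, N i : ℕ) : ℝ) ≤ X ^ (w - ε' - c m) := by
    intro m
    rw [← hc0, ← lp2_prod X hX0 c m]
    push_cast
    exact Finset.prod_le_prod (fun i _ => Nat.cast_nonneg _) (fun i _ => hNn i)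
  set R : ℝ := P ^ (1 / d : ℝ) with hR
  have hRd : R ^ d = P := by
    rw [hR, ← Real.rpow_natCast, ← Real.rpow_mul hP.le, one_div, inv_mul_cancel₀ hd0.ne',
      Real.rpow_one]
  have hR1 : 1 ≤ R := Real.one_le_rpow hP1' (by positivity)
  have hRX : X ^ (w - ε') ≤ R := by
    have h1 : X ^ (a - ε0) ≤ P := by
      refine le_trans ?_ hP1
      exact Real.rpow_le_rpow_of_exponent_le hX (by linarith)
    have h2 : X ^ (w - ε') = (X ^ (a - ε0)) ^ (1 / d : ℝ) := by
      rw [← Real.rpow_mul hX0.le]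
      congr 1
      rw [hw, hε']
      field_simp
    rw [h2, hR]
    exact Real.rpow_le_rpow (Real.rpow_nonneg hX0.le _) h1 (by positivity)
  refine ⟨R, N, rfl, hR1, hRd, hN1, ?_, ?_, ?_⟩
  · intro r hr1 hrd hNr
    have h1 : c r < c (r - 1) := by
      refine lt_of_le_of_ne (hcanti (Nat.sub_le r 1)) ?_
      intro heq
      apply hNr
      simp only [hN, hn]
      rw [heq, sub_self, Real.rpow_zero]
      simp
    have h2 : b r < b (r - 1) := by
      by_contra hh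
      have : c (r - 1) ≤ c r := min_le_min_right _ (not_lt.1 hh)
      linarith
    have h3 : c r = b r := by
      have h4 : c r < w - ε' := lt_of_lt_of_le h1 (min_le_right _ _)
      rcases min_choice (b r) (w - ε') with h5 | h5
      · exact h5
      · exact absurd h4 (by simp only [hc]; rw [h5]; exact lt_irrefl _)
    refine ⟨h2, ?_⟩
    refine le_trans (hprod r) ?_
    rw [h3, sub_eq_add_neg (w - ε'), Real.rpow_add hX0]
    exact mul_le_mul_of_nonneg_right hRX (Real.rpow_nonneg hX0.le _)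
  · refine le_trans (hprod (d - 1)) (le_trans ?_ hRX)
    refine Real.rpow_le_rpow_of_exponent_le hX ?_
    have := hcpos (d - 1) (by omega)
    linarith
  · have hNpos : ∀ r, (0 : ℝ) < N r := fun r => by exact_mod_cast hN1 r
    have e1 : ((∏ r ∈ Icc 1 (d - 1), N r ^ r : ℕ) : ℝ) *
          (R / ((∏ i ∈ Icc 1 (d - 1), N i : ℕ) : ℝ)) ^ d =
        P * ∏ r ∈ Icc 1 (d - 1), ((N r : ℝ) ^ r / (N r : ℝ) ^ d) := by
      push_cast
      rw [div_pow, hRd, ← Finset.prod_pow, Finset.prod_div_distrib]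
      ring
    have e2 : ∀ r, (N r : ℝ) ^ r / (N r : ℝ) ^ d ≤
        2 ^ d * X ^ (((r : ℝ) - d) * (c (r - 1) - c r)) := by
      intro r
      have h1 : X ^ (((r : ℝ) - d) * (c (r - 1) - c r)) = n r ^ r / n r ^ d := by
        simp only [hn]
        rw [← Real.rpow_natCast, ← Real.rpow_natCast, ← Real.rpow_mul hX0.le,
          ← Real.rpow_mul hX0.le, ← Real.rpow_sub hX0]
        congr 1
        ring
      have hn0 : 0 < n r := by linarith [hn1 r]
      rw [h1, ← mul_div_assoc, div_le_div_iff₀ (pow_pos (hNpos r) _) (pow_pos hn0 _)]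
      have h2 : (N r : ℝ) ^ r ≤ n r ^ r := pow_le_pow_left₀ (hNpos r).le (hNn r) _
      have h3 : n r ^ d ≤ 2 ^ d * (N r : ℝ) ^ d := by
        rw [← mul_pow]
        exact pow_le_pow_left₀ hn0.le (hnN r) _
      calc (N r : ℝ) ^ r * n r ^ d ≤ n r ^ r * (2 ^ d * (N r : ℝ) ^ d) :=
            mul_le_mul h2 h3 (pow_nonneg hn0.le _) (pow_nonneg hn0.le _)
        _ = 2 ^ d * n r ^ r * (N r : ℝ) ^ d := by ring
    have e3 : ∏ r ∈ Icc 1 (d - 1), ((N r : ℝ) ^ r / (N r : ℝ) ^ d) ≤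
        2 ^ (d * (d - 1)) * X ^ (-(d : ℝ) * c 0 + ∑ r ∈ range d, c r) := by
      refine le_trans (Finset.prod_le_prod (fun r _ => ?_) (fun r _ => e2 r)) ?_
      · exact div_nonneg (pow_nonneg (hNpos r).le _) (pow_nonneg (hNpos r).le _)
      rw [Finset.prod_mul_distrib, Finset.prod_const, Nat.card_Icc, ← pow_mul,
        ← Real.rpow_sum_of_pos hX0, lp2_sum]
      have h1 : d - 1 + 1 - 1 = d - 1 := by omega
      have h2 : d - 1 + 1 = d := by omega
      have h3 : ((d - 1 : ℕ) : ℝ) + 1 - d = 0 := by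
        rw [Nat.cast_sub (by omega)]
        push_cast
        ring
      rw [h1, h2, h3, zero_mul, sub_zero]
    have e4 : ∑ r ∈ range d, c r ≤ Sb := Finset.sum_le_sum fun r _ => min_le_left _ _
    rw [e1]
    calc P * ∏ r ∈ Icc 1 (d - 1), ((N r : ℝ) ^ r / (N r : ℝ) ^ d)
        ≤ X ^ (a + ε) * (2 ^ (d * (d - 1)) * X ^ (-(d : ℝ) * c 0 + ∑ r ∈ range d, c r)) :=
          mul_le_mul hP2 e3 (Finset.prod_nonneg fun r _ =>
            div_nonneg (pow_nonneg (hNpos r).le _) (pow_nonneg (hNpos r).le _))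
            (Real.rpow_nonneg hX0.le _)
      _ = 2 ^ (d * (d - 1)) * X ^ ((a + ε) + (-(d : ℝ) * c 0 + ∑ r ∈ range d, c r)) := by
          rw [Real.rpow_add hX0 (a + ε)]
          ring
      _ ≤ 2 ^ (d * d) * X ^ (1 - (1 - Sb) / 2) := by
          refine mul_le_mul ?_ ?_ (Real.rpow_nonneg hX0.le _) (by positivity)
          · exact pow_le_pow_right₀ (by norm_num) (Nat.mul_le_mul_left _ (Nat.sub_le _ _))
          · refine Real.rpow_le_rpow_of_exponent_le hX ?_
            rw [hc0]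
            have : -(d : ℝ) * (w - ε') = -a + ε0 := by
              rw [neg_mul, mul_sub, hdw, hdε']
              ring
            rw [this]
            linarith

end Vale.Agent.P018.K2
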