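import Vale.Agent.P018.K2.Rel
import Vale.Agent.P018.K2.Multi
import Vale.Agent.P018.K2.Params2
import Vale.Agent.P018.K.Family

/-! # P018, K2 (staircase), modules F, G: the bound near one exponent from the staircase.

`b 0 = w = a/d ≥ b 1 ≥ ... ≥ b (d-1) > 0`; for every `r` with `b r < b (r-1)` the criterion `Crit`
holds at `b r`; `∑_{r<d} b r < 1`. -/

namespace Vale.Agent.P018.K2

open Polynomial NumberField Vale.Agent.P018.K Finset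

/-- the criterion for `r`-tuples at the aperture exponent `b` (cubes of side `P^(1/d) X^(-b)`). -/
def Crit (d k r : ℕ) (a b : ℝ) : Prop :=
  ∃ (T : ℕ) (lam : ℕ → ℝ) (B : Finset (ℕ × (Fin r → ℤ))) (V : ℝ), Antitone lam ∧
    (∀ p ∈ B, p.1 ≤ T ∧ needs k p.2 ≤ p.1) ∧
    (∀ T' : Finset (ℕ × (Fin r → ℕ)), (∀ τ ∈ T', τ.1 ≤ T) →
      ∑ τ ∈ T', (lam τ.1 + τ.1 - b * ∑ i, (τ.2 i : ℝ)) ≤ V) ∧
    V < ∑ p ∈ B, (lam p.1 - a / d * ∑ i, (p.2 i : ℝ))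

/-- admissibility of `a` for the staircase. -/
def Adm2 (d k : ℕ) (a : ℝ) : Prop :=
  ∃ b : ℕ → ℝ, b 0 = a / d ∧ (∀ r, b (r + 1) ≤ b r) ∧ 0 < b (d - 1) ∧
    (∀ r, 1 ≤ r → r + 1 ≤ d → b r < b (r - 1) → Crit d k r a (b r)) ∧
    ∑ r ∈ range d, b r < 1

/-- the criterion from the integral (`exists_family`). -/
theorem crit_of_Jint (d k r : ℕ) (hd : 1 ≤ d) (hk : 1 ≤ k) (hr : 1 ≤ r) (a b m : ℝ) (ha : 0 < a)
    (hb : 0 < b) (hm0 : 0 ≤ m) (hm1 : m < 1)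
    (hJ : (1 - m) ^ (r + 1) / ((r + 1).factorial * b ^ r) < Jint r m (a / d) k) :
    Crit d k r a b := by
  obtain ⟨T, B, V, hB, hV, hcrit⟩ := exists_family k r hk hr (a / d) b m
    (by positivity) hb hm0 hm1 hJ
  refine ⟨T, fun t => -(m * (t : ℝ)), B, V, ?_, hB, hV, hcrit⟩
  intro s t hst
  have h1 : (s : ℝ) ≤ t := by exact_mod_cast hst
  simp only [neg_le_neg_iff]
  exact mul_le_mul_of_nonneg_left h1 hm0

theorem lb2_min (n : ℕ) (e : ℕ → ℝ) (h : ∀ r, 0 < e r) :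
    ∃ ε : ℝ, 0 < ε ∧ ∀ r, r < n → ε ≤ e r := by
  induction n with
  | zero => exact ⟨1, one_pos, fun r hr => absurd hr (Nat.not_lt_zero r)⟩
  | succ n ih =>
    obtain ⟨ε, hε, h1⟩ := ih
    refine ⟨min ε (e n), lt_min hε (h n), fun r hr => ?_⟩
    rcases Nat.lt_succ_iff_lt_or_eq.1 hr with h2 | h2
    · exact (min_le_left _ _).trans (h1 r h2)
    · rw [h2]
      exact min_le_right _ _

theorem lb2_max (n : ℕ) (e : ℕ → ℕ) : ∃ M : ℕ, ∀ r, r < n → e r ≤ M := by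
  induction n with
  | zero => exact ⟨0, fun r hr => absurd hr (Nat.not_lt_zero r)⟩
  | succ n ih =>
    obtain ⟨M, h1⟩ := ih
    refine ⟨max M (e n), fun r hr => ?_⟩
    rcases Nat.lt_succ_iff_lt_or_eq.1 hr with h2 | h2
    · exact (h1 r h2).trans (le_max_left _ _)
    · rw [h2]
      exact le_max_right _ _

/-- the conditions on the points -/
def Pts (L : Type) [Field L] [NumberField L] {d : ℕ} (θ : Fin d → 𝓞 L) (k : ℕ) (A0 X R : ℝ)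
    (c : ℤ) (Q : Finset (ℤ × (Fin d → ℤ))) : Prop :=
  (∀ q ∈ Q, |(q.1 : ℝ)| ≤ A0 * X) ∧ (∀ q ∈ Q, ∀ j, |(q.2 j : ℝ)| ≤ 2 * R) ∧
    (∀ q ∈ Q, ∃ N : ℤ, ∏ i, ell (θ i) q.2 = (N : 𝓞 L) ∧ R ^ d ≤ |(N : ℝ)|) ∧
    (∀ q ∈ Q, ∃ γ : Fin d → 𝓞 L, ∀ i,
      (c : 𝓞 L) ^ k * ((q.1 : 𝓞 L) - θ i) = ell (θ i) q.2 ^ k * γ i)

/-- all `r`-tuples satisfy a relation of degree at most `D` on `Q` -/
def RelAll (L : Type) [Field L] [NumberField L] {d : ℕ} (θ : Fin d → 𝓞 L) (r D : ℕ)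
    (Q : Finset (ℤ × (Fin d → ℤ))) : Prop :=
  ∀ I : Fin r → Fin d, Function.Injective I → ∃ F : MvPolynomial (Fin r) L[X], F ≠ 0 ∧
    (∀ a ∈ F.support, a.degree ≤ D ∧ (F.coeff a).natDegree ≤ D) ∧
    ∀ q ∈ Q, MvPolynomial.eval₂ (Polynomial.evalRingHom (q.1 : L))
      (fun i => ell ((θ (I i) : 𝓞 L) : L) q.2) F = 0

/-- the relations at one scale -/
theorem lb2_scale (L : Type) [Field L] [NumberField L] {d : ℕ} (hd : 1 ≤ d) (θ : Fin d → 𝓞 L)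
    (k : ℕ) (hk : 1 ≤ k) (r : ℕ) (a b : ℝ) (hb : 0 < b) (hcrit : Crit d k r a b) (A0 : ℝ)
    (hA0 : 1 ≤ A0) (Cs : ℕ) :
    ∃ (D : ℕ) (ε1 : ℝ) (X1 : ℕ), 0 < ε1 ∧ ∀ (X P R : ℝ) (H : ℕ), (X1 : ℝ) ≤ X → 1 ≤ X → X ≤ P →
      X ^ (a - ε1) ≤ P → P ≤ X ^ (a + ε1) → R = P ^ (1 / d : ℝ) → 1 ≤ R → 1 ≤ H →
      (H : ℝ) ≤ R * X ^ (-b) → ∀ (c : ℤ) (y0 : Fin d → ℤ) (Q : Finset (ℤ × (Fin d → ℤ))),
      c ≠ 0 → |c| ≤ Cs → (∀ q ∈ Q, ∀ j, y0 j ≤ q.2 j ∧ q.2 j < y0 j + H) →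
      Pts L θ k A0 X R c Q → RelAll L θ r D Q := by
  obtain ⟨T, lam, B, V, hlam, hB, hV, hc⟩ := hcrit
  obtain ⟨ε1, hε1, δ, hδ, hprod⟩ := loc_prod_le d hd a b T lam hlam B
    (fun p hp => (hB p hp).1) V hV hc
  obtain ⟨K, D, hK, hrel⟩ := loc_rel L hd θ k hk r B (fun p hp => (hB p hp).2) A0 hA0 Cs
  refine ⟨D, ε1, ⌈K ^ (1 / δ)⌉₊ + 1, hε1, ?_⟩
  intro X P R H hX1 hX hXP hP1 hP2 hR hR1 hH hHρ c y0 Q hc0 hcs hcube hpts I hI
  have hX0 : 0 < X := by linarith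
  have hKV : K * X ^ (-δ) < 1 := by
    rw [Real.rpow_neg hX0.le, mul_inv_lt_iff₀ (by positivity), one_mul]
    have h1 : K ^ (1 / δ) < X := by
      have h2 := Nat.le_ceil (K ^ (1 / δ))
      push_cast at hX1
      linarith
    calc K = (K ^ (1 / δ)) ^ δ := by
          rw [← Real.rpow_mul hK.le, one_div, inv_mul_cancel₀ hδ.ne', Real.rpow_one]
      _ < X ^ δ := Real.rpow_lt_rpow (by positivity) h1 hδ
  have hb1 : X ^ (-b) ≤ 1 := Real.rpow_le_one_of_one_le_of_nonpos hX (by linarith)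
  have hρ0 : 0 < R * X ^ (-b) := by positivity
  have hρR : R * X ^ (-b) ≤ R := by
    calc R * X ^ (-b) ≤ R * 1 := mul_le_mul_of_nonneg_left hb1 (by linarith)
      _ = R := mul_one _
  have hρdiv : R * X ^ (-b) / R = X ^ (-b) := by
    rw [mul_comm, mul_div_assoc, div_self (by linarith), mul_one]
  refine hrel X R (R * X ^ (-b)) (X ^ (-δ)) H hX hR1 hρ0 hρR (by positivity) hH hHρ hKV ?_ c y0 Q
    hc0 hcs hcube hpts.1 hpts.2.1 hpts.2.2.1 hpts.2.2.2 I hI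
  intro m hm1 hm2
  rw [hρdiv, hR]
  exact hprod X P hX (by linarith) hP1 hP2 m hm1 hm2

/-- MODULE G. assembly: same structure as `local_bound` in `Vale.Agent.P018.K.Local`; `loc_cls` is
used with `r := 0` and `Cc := C * ∏ r, N r ^ r`; for every `r` with `N r ≠ 1` use `loc_rel` (with
`ρ = R * X ^ (-(b r))`) and `loc_prod_le`, to get the hypothesis of `multi_count`; take the maximum
of the finitely many constants `D`. -/
theorem local_bound2 (f : ℤ[X]) (hirr : Irreducible (f.map (Int.castRingHom ℚ))) (k : ℕ)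
    (hk : 2 ≤ k) (hkd : k < f.natDegree) (a : ℝ) (ha : 1 ≤ a) (hadm : Adm2 f.natDegree k a) :
    ∃ ε η K : ℝ, 0 < ε ∧ 0 < η ∧ 0 < K ∧ ∃ X0 : ℕ, ∀ X P : ℕ, X0 ≤ X → X ≤ P →
      (X : ℝ) ^ (a - ε) ≤ P → (P : ℝ) ≤ (X : ℝ) ^ (a + ε) →
      ((pairs f k X P).card : ℝ) ≤ K * (X : ℝ) ^ (1 - η) := by
  classical
  obtain ⟨b, hb0, hanti, hpos, hcrit, hfin⟩ := hadm
  obtain ⟨L, _, _, θ, G, a0, ha0, hGm, hGd, hGi, hθ, hGθ, hGe⟩ := exists_field f hirr (by omega)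
  have hdr : (3 : ℝ) ≤ f.natDegree := by exact_mod_cast (show 3 ≤ f.natDegree by omega)
  obtain ⟨Cs, hCs1, hsmall⟩ := exists_small L (by omega) G hGm hGd hGi θ hGθ k (by omega)
  obtain ⟨D1, hD1⟩ := loc_mult_n f hirr k (by omega)
  obtain ⟨X1, hX1⟩ := loc_mult_p f hirr (by omega) k (by omega)
  have hA0 : (1 : ℝ) ≤ |(a0 : ℝ)| + 1 := by linarith [abs_nonneg (a0 : ℝ)]
  have hanti' : Antitone b := antitone_nat_of_succ_le hanti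
  -- the scales
  have hscale : ∀ r : ℕ, ∃ (D : ℕ) (ε1 : ℝ) (X1 : ℕ), 0 < ε1 ∧ (1 ≤ r → r + 1 ≤ f.natDegree →
      b r < b (r - 1) → ∀ (X P R : ℝ) (H : ℕ), (X1 : ℝ) ≤ X → 1 ≤ X → X ≤ P →
      X ^ (a - ε1) ≤ P → P ≤ X ^ (a + ε1) → R = P ^ (1 / f.natDegree : ℝ) → 1 ≤ R → 1 ≤ H →
      (H : ℝ) ≤ R * X ^ (-(b r)) → ∀ (c : ℤ) (y0 : Fin f.natDegree → ℤ)
      (Q : Finset (ℤ × (Fin f.natDegree → ℤ))),
      c ≠ 0 → |c| ≤ Cs → (∀ q ∈ Q, ∀ j, y0 j ≤ q.2 j ∧ q.2 j < y0 j + H) →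
      Pts L θ k (|(a0 : ℝ)| + 1) X R c Q → RelAll L θ r D Q) := by
    intro r
    by_cases hr : 1 ≤ r ∧ r + 1 ≤ f.natDegree ∧ b r < b (r - 1)
    · have hbr : 0 < b r := lt_of_lt_of_le hpos (hanti' (by omega))
      obtain ⟨D, ε1, X1, hε1, h⟩ := lb2_scale L (by omega) θ k (by omega) r a (b r) hbr
        (hcrit r hr.1 hr.2.1 hr.2.2) (|(a0 : ℝ)| + 1) hA0 Cs
      exact ⟨D, ε1, X1, hε1, fun _ _ _ => h⟩
    · exact ⟨0, 1, 0, one_pos, fun h1 h2 h3 => absurd ⟨h1, h2, h3⟩ hr⟩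
  choose Dr εr Xr hεr hrel using hscale
  obtain ⟨D, hD⟩ := lb2_max f.natDegree Dr
  obtain ⟨X2, hX2⟩ := lb2_max f.natDegree Xr
  obtain ⟨ε2, hε2, hεmin⟩ := lb2_min f.natDegree εr hεr
  obtain ⟨ε0, η, hε0, hη0, hparams⟩ := loc_params2 f.natDegree (by omega) a ha b hb0 hanti hpos hfin
  obtain ⟨Cm, hmulti⟩ := multi_count f.natDegree D f.natDegree
  refine ⟨min ε0 ε2, η,
    (D1 : ℝ) * Cm * (2 * Cs + 1) * 9 ^ f.natDegree * 2 ^ (f.natDegree * f.natDegree) + 1,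
    lt_min hε0 hε2, hη0, by positivity, max (max X1 (Cs + 2)) X2, ?_⟩
  intro X P hX hXP hP1 hP2
  have hXX1 : X1 ≤ X := le_trans (le_trans (le_max_left _ _) (le_max_left _ _)) hX
  have hXCs : Cs + 2 ≤ X := le_trans (le_trans (le_max_right _ _) (le_max_left _ _)) hX
  have hXX2 : X2 ≤ X := le_trans (le_max_right _ _) hX
  have hXr2 : (2 : ℝ) ≤ X := by exact_mod_cast (show 2 ≤ X by omega)
  have hXr1 : (1 : ℝ) ≤ X := by linarith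
  have hXr0 : (0 : ℝ) < X := by linarith
  have hXPr : (X : ℝ) ≤ P := by exact_mod_cast hXP
  obtain ⟨R, N, hR, hR1, hRd, hN1, hNr, hHR, hfinal⟩ := hparams (min ε0 ε2) (lt_min hε0 hε2)
    (min_le_left _ _) X P hXr1 hXPr hP1 hP2
  obtain ⟨H, hH⟩ : ∃ H : ℕ, H = ∏ i ∈ Icc 1 (f.natDegree - 1), N i := ⟨_, rfl⟩
  have hH1 : 1 ≤ H := by
    rw [hH]
    exact Nat.one_le_iff_ne_zero.2 (Finset.prod_ne_zero_iff.2 fun i _ =>
      Nat.one_le_iff_ne_zero.1 (hN1 i))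
  -- data attached to a pair
  have hdata : ∀ z ∈ pairs f k X P, ∃ (y : Fin f.natDegree → ℤ) (c : ℤ)
      (γ : Fin f.natDegree → 𝓞 L),
      (∀ j, |(y j : ℝ)| ≤ 2 * R) ∧ c ≠ 0 ∧ |c| ≤ Cs ∧
        (∏ i, ell (θ i) y = (((z.2 : ℤ) * c : ℤ) : 𝓞 L)) ∧
        ∀ i, (c : 𝓞 L) ^ k * (((a0 * z.1 : ℤ) : 𝓞 L) - θ i) = ell (θ i) y ^ k * γ i := by
    intro z hz
    rw [pairs, Finset.mem_filter, Finset.mem_product, Finset.mem_Icc, Finset.mem_Ioc] at hz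
    obtain ⟨⟨h1, h2⟩, h3, h4⟩ := hz
    obtain ⟨y, c, γ, -, h5, h6, h7, h8, h9⟩ := hsmall z.2 (a0 * z.1) h3 (by omega) (by
      rw [hGe]
      exact h4.mul_left _)
    refine ⟨y, c, γ, fun j => ?_, h6, h7, h8, h9⟩
    have h10 : |(y j : ℝ)| ^ f.natDegree ≤ (2 * R) ^ f.natDegree := by
      have h11 : (|(y j : ℝ)|) ^ f.natDegree ≤ (z.2 : ℝ) := by exact_mod_cast h5 j
      have h12 : (z.2 : ℝ) ≤ 2 * P := by exact_mod_cast h2.2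
      rw [mul_pow, hRd]
      have h13 : (2 : ℝ) ≤ 2 ^ f.natDegree := by
        calc (2 : ℝ) = 2 ^ 1 := by norm_num
          _ ≤ 2 ^ f.natDegree := pow_le_pow_right₀ (by norm_num) (by omega)
      nlinarith
    exact (pow_le_pow_iff_left₀ (abs_nonneg _) (by linarith) (by omega)).1 h10
  choose! Y cc Γ hY hcc0 hccs hN hΓ using hdata
  -- the class bound
  have hclass : ∀ (c : ℤ) (y0 : Fin f.natDegree → ℤ) (Q : Finset (ℤ × (Fin f.natDegree → ℤ))),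
      c ≠ 0 → |c| ≤ Cs →
      (∀ q ∈ Q, ∀ j, y0 j ≤ q.2 j ∧ q.2 j < y0 j + H) →
      (∀ q ∈ Q, ∀ q' ∈ Q, q.2 = q'.2 → q = q') →
      (∀ n : ℤ, (Q.filter (fun q => q.1 = n)).card ≤ f.natDegree) →
      (∀ q ∈ Q, |(q.1 : ℝ)| ≤ (|(a0 : ℝ)| + 1) * X) →
      (∀ q ∈ Q, ∀ j, |(q.2 j : ℝ)| ≤ 2 * R) →
      (∀ q ∈ Q, ∃ N : ℤ, ∏ i, ell (θ i) q.2 = (N : 𝓞 L) ∧ R ^ f.natDegree ≤ |(N : ℝ)|) →
      (∀ q ∈ Q, ∃ γ : Fin f.natDegree → 𝓞 L, ∀ i,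
        (c : 𝓞 L) ^ k * ((q.1 : 𝓞 L) - θ i) = ell (θ i) q.2 ^ k * γ i) →
      Q.card ≤ (Cm * ∏ r ∈ Icc 1 (f.natDegree - 1), N r ^ r) * H ^ 0 := by
    intro c y0 Q h1 h2 h3 h4 h5 h6 h7 h8 h9
    rw [pow_zero, mul_one]
    have h10 := hmulti L (fun i => ((θ i : 𝓞 L) : L))
      (fun i j h => hθ (RingOfIntegers.ext h)) N hN1 Q h4 h5 (by
        intro r hr hrd hNr1 y1 I hI
        obtain ⟨hbr, hHr⟩ := hNr r hr hrd hNr1
        set Q1 := Q.filter (fun q => ∀ j, y1 j ≤ q.2 j ∧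
          q.2 j < y1 j + ((∏ i ∈ Icc 1 r, N i : ℕ) : ℤ)) with hQ1
        have hsub : ∀ q ∈ Q1, q ∈ Q := fun q hq => (Finset.mem_filter.1 hq).1
        have hHr1 : 1 ≤ ∏ i ∈ Icc 1 r, N i := Nat.one_le_iff_ne_zero.2
          (Finset.prod_ne_zero_iff.2 fun i _ => Nat.one_le_iff_ne_zero.1 (hN1 i))
        have hεr' : min ε0 ε2 ≤ εr r := (min_le_right _ _).trans (hεmin r (by omega))
        have h11 := hrel r hr hrd hbr X P R (∏ i ∈ Icc 1 r, N i)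
          (by exact_mod_cast (hX2 r (by omega)).trans hXX2) hXr1 hXPr
          ((Real.rpow_le_rpow_of_exponent_le hXr1 (by linarith)).trans hP1)
          (hP2.trans (Real.rpow_le_rpow_of_exponent_le hXr1 (by linarith))) hR hR1 hHr1 hHr c y1
          Q1 h1 h2 (fun q hq => (Finset.mem_filter.1 hq).2)
          ⟨fun q hq => h6 q (hsub q hq), fun q hq => h7 q (hsub q hq),
            fun q hq => h8 q (hsub q hq), fun q hq => h9 q (hsub q hq)⟩ I hI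
        obtain ⟨F, hF0, hFd, hF⟩ := h11
        refine ⟨F, hF0, fun a ha => ⟨(hFd a ha).1.trans (hD r (by omega)),
          (hFd a ha).2.trans (hD r (by omega))⟩, fun q hq hq2 => ?_⟩
        exact hF q (Finset.mem_filter.2 ⟨hq, hq2⟩)) y0
    rw [← hH] at h10
    rw [Finset.filter_true_of_mem h3] at h10
    exact h10
  have hcount := loc_count_classes (pairs f k X P) Y cc Cs
    (D1 * ((Cm * ∏ r ∈ Icc 1 (f.natDegree - 1), N r ^ r) * H ^ 0)) H R hH1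
    (by rw [hH]; exact hHR) hccs hY (fun κ => loc_cls f k X P D1
      (Cm * ∏ r ∈ Icc 1 (f.natDegree - 1), N r ^ r) H 0 a0 ha0 L θ hXP hD1
      (hX1 X P hXX1 hXP) (|(a0 : ℝ)| + 1) R (by linarith) hRd (by linarith) Y cc Γ Cs hcc0 hccs
      hY hN hΓ hclass hH1 κ)
  refine hcount.trans ?_
  rw [← hH] at hfinal
  have h20 : ((D1 * ((Cm * ∏ r ∈ Icc 1 (f.natDegree - 1), N r ^ r) * H ^ 0) : ℕ) : ℝ) *
      ((2 * Cs + 1) * (9 * (R / H)) ^ f.natDegree) =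
      (D1 : ℝ) * Cm * (2 * Cs + 1) * 9 ^ f.natDegree *
        (((∏ r ∈ Icc 1 (f.natDegree - 1), N r ^ r : ℕ) : ℝ) * (R / H) ^ f.natDegree) := by
    rw [mul_pow]
    push_cast
    ring
  rw [h20]
  have h21 : (D1 : ℝ) * Cm * (2 * Cs + 1) * 9 ^ f.natDegree *
        (((∏ r ∈ Icc 1 (f.natDegree - 1), N r ^ r : ℕ) : ℝ) * (R / H) ^ f.natDegree) ≤
      (D1 : ℝ) * Cm * (2 * Cs + 1) * 9 ^ f.natDegree *
        (2 ^ (f.natDegree * f.natDegree) * (X : ℝ) ^ (1 - η)) :=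
    mul_le_mul_of_nonneg_left hfinal (by positivity)
  refine h21.trans ?_
  have h22 : 0 ≤ (X : ℝ) ^ (1 - η) := by positivity
  nlinarith

end Vale.Agent.P018.K2
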