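import Vale.Agent.P018.K.Local

/-! # P018, K2 (staircase), module D: the relations in one cube.

This is exactly the first part of the proof of `loc_class` in `Vale.Agent.P018.K.Local` (everything
except the use of `count_points`). -/

namespace Vale.Agent.P018.K2

open Polynomial NumberField Vale.Agent.P018.K

theorem loc_rel (L : Type) [Field L] [NumberField L] {d : ℕ} (hd : 1 ≤ d) (θ : Fin d → 𝓞 L)
    (k : ℕ) (hk : 1 ≤ k) (r : ℕ) (B : Finset (ℕ × (Fin r → ℤ)))
    (hB : ∀ p ∈ B, needs k p.2 ≤ p.1) (A0 : ℝ) (hA0 : 1 ≤ A0) (Cs : ℕ) :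
    ∃ (K : ℝ) (D : ℕ), 0 < K ∧ ∀ (X R ρ V : ℝ) (H : ℕ), 1 ≤ X → 1 ≤ R → 0 < ρ → ρ ≤ R →
      0 ≤ V → 1 ≤ H → (H : ℝ) ≤ ρ → K * V < 1 →
      (∀ m : B → ℕ × (Fin r → ℕ), Function.Injective m → (∀ f, (m f).1 ≤ f.1.1) →
        ∏ f, (R ^ (∑ i, f.1.2 i : ℤ) * X ^ (m f).1 * (ρ / R) ^ (∑ i, (m f).2 i)) ≤ V) →
      ∀ (c : ℤ) (y0 : Fin d → ℤ) (Q : Finset (ℤ × (Fin d → ℤ))), c ≠ 0 → |c| ≤ Cs →
      (∀ q ∈ Q, ∀ j, y0 j ≤ q.2 j ∧ q.2 j < y0 j + H) →
      (∀ q ∈ Q, |(q.1 : ℝ)| ≤ A0 * X) →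
      (∀ q ∈ Q, ∀ j, |(q.2 j : ℝ)| ≤ 2 * R) →
      (∀ q ∈ Q, ∃ N : ℤ, ∏ i, ell (θ i) q.2 = (N : 𝓞 L) ∧ R ^ d ≤ |(N : ℝ)|) →
      (∀ q ∈ Q, ∃ γ : Fin d → 𝓞 L, ∀ i,
        (c : 𝓞 L) ^ k * ((q.1 : 𝓞 L) - θ i) = ell (θ i) q.2 ^ k * γ i) →
      ∀ I : Fin r → Fin d, Function.Injective I → ∃ F : MvPolynomial (Fin r) L[X], F ≠ 0 ∧
        (∀ a ∈ F.support, a.degree ≤ D ∧ (F.coeff a).natDegree ≤ D) ∧
        ∀ q ∈ Q, MvPolynomial.eval₂ (Polynomial.evalRingHom (q.1 : L))
          (fun i => ell ((θ (I i) : 𝓞 L) : L) q.2) F = 0 := by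
  classical
  obtain ⟨A, hA1, hAθ, hAd, hAs⟩ := exists_size L hd θ
  obtain ⟨D, hD⟩ := K.exists_relation k hk B hB
  set A' : ℝ := 3 * A + (Cs : ℝ) ^ k + A0 with hA'
  have hCs0 : (0 : ℝ) ≤ (Cs : ℝ) ^ k := by positivity
  have hA'1 : 1 ≤ A' := by linarith
  obtain ⟨K, hK, hdet⟩ := det_small k hk (ι := B) (fun f => f.1.1) (fun f => f.1.2)
    (fun f => hB f.1 f.2) A' hA'1
  refine ⟨K, D, hK, ?_⟩
  intro X R ρ V H hX hR hρ hρR hV hH hHρ hKV hm c y0 Q hc hcs hcube hn hy hN hγ
  rcases Q.eq_empty_or_nonempty with hQ | ⟨q0, hq0⟩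
  · intro I hI
    refine ⟨1, one_ne_zero, ?_, ?_⟩
    · intro a ha
      have h1 : a = 0 := by
        by_contra hne
        rw [MvPolynomial.mem_support_iff, MvPolynomial.coeff_one, if_neg (Ne.symm hne)] at ha
        exact ha rfl
      rw [h1]
      simp
    · intro q hq
      rw [hQ] at hq
      simp at hq
  choose! Γ hΓ using hγ
  have hz0 : ∀ (σ : L →+* ℂ) (i : Fin d), ‖σ (ell (θ i : L) y0)‖ ≤ A' * R := by
    intro σ i
    have h1 := hAd σ i y0 0 (3 * R) (by
      intro j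
      have h2 := hcube q0 hq0 j
      have h3 := hy q0 hq0 j
      have h4 : (y0 j : ℝ) ≤ q0.2 j := by exact_mod_cast h2.1
      have h5 : (q0.2 j : ℝ) < y0 j + H := by exact_mod_cast h2.2
      rw [abs_le] at h3
      simp only [Pi.zero_apply, Int.cast_zero, sub_zero]
      rw [abs_le]
      constructor <;> linarith)
    have h6 : σ (ell (θ i : L) (0 : Fin d → ℤ)) = 0 := by
      simp [ell]
    rw [h6, sub_zero] at h1
    refine h1.trans ?_
    nlinarith
  intro I hI
  have hne : ∀ q ∈ Q, ∀ i, ell (θ i : L) q.2 ≠ 0 := by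
    intro q hq i h0
    obtain ⟨N, hN1, hN2⟩ := hN q hq
    have h1 : (ell (θ i) q.2 : 𝓞 L) = 0 := by
      apply RingOfIntegers.ext
      exact (loc_map_ell (algebraMap (𝓞 L) L) (θ i) q.2).trans
        (h0.trans (map_zero (algebraMap (𝓞 L) L)).symm)
    have h2 : ((N : ℤ) : 𝓞 L) = 0 := by
      rw [← hN1]
      exact Finset.prod_eq_zero (Finset.mem_univ i) h1
    have h3 : N = 0 := by exact_mod_cast h2
    rw [h3] at hN2
    simp only [Int.cast_zero, abs_zero] at hN2
    have : 0 < R ^ d := by positivity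
    linarith
  obtain ⟨F, hF0, hFd, hF⟩ := hD L (fun i => (θ (I i) : L)) ((c : L) ^ k)
    (pow_ne_zero _ (by exact_mod_cast hc)) Q (fun q => q.1.1)
    (fun q i => ell (θ (I i) : L) q.1.2) (fun q i => (Γ q.1 (I i) : L))
    (fun q i => hne q.1 q.2 (I i)) (by
      intro q i
      have h1 := congrArg (algebraMap (𝓞 L) L) (hΓ q.1 q.2 (I i))
      simp only [map_mul, map_pow, map_sub, map_intCast, loc_map_ell] at h1
      exact h1.symm) (by
      intro φ
      set Mo : Matrix B B (𝓞 L) := Matrix.of fun q f =>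
        fn k ((φ q).1.1 : 𝓞 L) (fun i => ell (θ (I i)) (φ q).1.2) (fun i => Γ (φ q).1 (I i))
          f.1.1 f.1.2 with hMo
      have hmap : ∀ {S : Type} [CommRing S] (σ : 𝓞 L →+* S), σ Mo.det =
          (Matrix.of fun (q : B) (f : B) => fn k (((φ q).1.1 : ℤ) : S)
            (fun i => ell (σ (θ (I i))) (φ q).1.2) (fun i => σ (Γ (φ q).1 (I i)))
            f.1.1 f.1.2).det := by
        intro S _ σ
        rw [RingHom.map_det]
        congr 1
        ext q f
        simp only [hMo, RingHom.mapMatrix_apply, Matrix.map_apply, Matrix.of_apply, loc_map_fn,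
          loc_map_ell, map_intCast]
      have hzero : Mo.det = 0 := by
        apply eq_zero_of_conj_lt_one L
        intro σ
        have h1 := hmap (σ.comp (algebraMap (𝓞 L) L))
        have h2 : σ ((Mo.det : 𝓞 L) : L) = (σ.comp (algebraMap (𝓞 L) L)) Mo.det := rfl
        rw [h2, h1]
        refine lt_of_le_of_lt ?_ hKV
        refine hdet X R ρ V hX hR hρ hρR hV (fun i => σ (θ (I i) : L)) (((c : ℂ)) ^ k)
          (fun q => (((φ q).1.1 : ℤ) : ℂ)) _ _ (fun i => σ (ell (θ (I i) : L) y0)) ?_ ?_ ?_ ?_ ?_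
          ?_ ?_ ?_ hm
        · intro i
          refine (hAθ σ (I i)).trans ?_
          linarith
        · rw [norm_pow]
          have h3 : ‖(c : ℂ)‖ ≤ Cs := by
            rw [Complex.norm_intCast]
            exact_mod_cast hcs
          calc ‖(c : ℂ)‖ ^ k ≤ (Cs : ℝ) ^ k := pow_le_pow_left₀ (norm_nonneg _) h3 k
            _ ≤ A' := by linarith
        · intro q
          rw [Complex.norm_intCast]
          refine (hn _ (φ q).2).trans ?_
          have : A0 ≤ A' := by linarith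
          exact mul_le_mul_of_nonneg_right this (by linarith)
        · intro q i
          have h3 := hAd σ (I i) (φ q).1.2 y0 H (by
            intro j
            have h2 := hcube _ (φ q).2 j
            have h4 : (y0 j : ℝ) ≤ (φ q).1.2 j := by exact_mod_cast h2.1
            have h5 : ((φ q).1.2 j : ℝ) < y0 j + H := by exact_mod_cast h2.2
            rw [abs_le]
            constructor <;> linarith)
          rw [loc_map_ell] at h3
          refine h3.trans ?_
          have h4 : A ≤ A' := by linarith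
          exact mul_le_mul h4 hHρ (by positivity) (by linarith)
        · intro q i
          obtain ⟨N, hN1, hN2⟩ := hN _ (φ q).2
          have h3 := (hAs σ (I i) (φ q).1.2 R N hR (hy _ (φ q).2) hN1 hN2).2
          rw [loc_map_ell] at h3
          refine le_trans ?_ h3
          exact div_le_div_of_nonneg_left (by linarith) (by linarith) (by linarith)
        · intro q i
          obtain ⟨N, hN1, hN2⟩ := hN _ (φ q).2
          have h3 := (hAs σ (I i) (φ q).1.2 R N hR (hy _ (φ q).2) hN1 hN2).1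
          rw [loc_map_ell] at h3
          refine le_trans h3 ?_
          exact mul_le_mul_of_nonneg_right (by linarith) (by linarith)
        · intro i
          exact hz0 σ (I i)
        · intro q i
          have h3 := congrArg (σ.comp (algebraMap (𝓞 L) L)) (hΓ _ (φ q).2 (I i))
          simp only [map_mul, map_pow, map_sub, map_intCast, loc_map_ell] at h3
          exact h3.symm
      have h1 := hmap (algebraMap (𝓞 L) L)
      rw [hzero, map_zero] at h1
      exact h1.symm)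
  exact ⟨F, hF0, hFd, fun q hq => hF ⟨q, hq⟩⟩

end Vale.Agent.P018.K2
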